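import Mathlib
import Vale.Agent.P216.Defs

/-!
The Riemannian distance of a metric, as a real number, and its invariance under isometries.
-/

open Bundle Manifold Set MeasureTheory
open scoped ContDiff Topology ENNReal

namespace Vale.Agent.P216.Chord

noncomputable section

variable {E : Type*} [NormedAddCommGroup E] [NormedSpace ℝ E]
  {M : Type*} [TopologicalSpace M] [ChartedSpace E M] [IsManifold 𝓘(ℝ, E) ∞ M]

/-- The length of a curve for the metric `g`. -/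
def glen (g : ContMDiffRiemannianMetric 𝓘(ℝ, E) ∞ E (fun x : M => TangentSpace 𝓘(ℝ, E) x))
    (γ : ℝ → M) (a b : ℝ) : ℝ≥0∞ :=
  letI : RiemannianBundle (fun x : M => TangentSpace 𝓘(ℝ, E) x) := ⟨g.toRiemannianMetric⟩
  pathELength 𝓘(ℝ, E) γ a b

/-- The distance of the metric `g`, possibly infinite. -/
def gedist (g : ContMDiffRiemannianMetric 𝓘(ℝ, E) ∞ E (fun x : M => TangentSpace 𝓘(ℝ, E) x))
    (x y : M) : ℝ≥0∞ :=
  letI : RiemannianBundle (fun x : M => TangentSpace 𝓘(ℝ, E) x) := ⟨g.toRiemannianMetric⟩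
  riemannianEDist 𝓘(ℝ, E) x y

/-- The distance of the metric `g`. -/
def gdist (g : ContMDiffRiemannianMetric 𝓘(ℝ, E) ∞ E (fun x : M => TangentSpace 𝓘(ℝ, E) x))
    (x y : M) : ℝ := (gedist g x y).toReal

variable {g : ContMDiffRiemannianMetric 𝓘(ℝ, E) ∞ E (fun x : M => TangentSpace 𝓘(ℝ, E) x)}

/-- The speed of a curve. -/
def speed (g : ContMDiffRiemannianMetric 𝓘(ℝ, E) ∞ E (fun x : M => TangentSpace 𝓘(ℝ, E) x))
    (γ : ℝ → M) (t : ℝ) : ℝ :=
  let v : TangentSpace 𝓘(ℝ, E) (γ t) := (mfderiv 𝓘(ℝ, ℝ) 𝓘(ℝ, E) γ t (1 : ℝ) : E)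
  Real.sqrt (g.inner (γ t) v v)

theorem glen_eq (γ : ℝ → M) (a b : ℝ) :
    glen g γ a b = ∫⁻ t in Icc a b, ENNReal.ofReal (speed g γ t) := by
  letI : RiemannianBundle (fun x : M => TangentSpace 𝓘(ℝ, E) x) := ⟨g.toRiemannianMetric⟩
  show pathELength 𝓘(ℝ, E) γ a b = _
  rw [pathELength_eq_lintegral_mfderiv_Icc]
  refine setLIntegral_congr_fun measurableSet_Icc fun t _ => ?_
  rw [← ofReal_norm_eq_enorm]
  rfl

theorem gedist_le {γ : ℝ → M} {a b : ℝ} (hγ : ContMDiffOn 𝓘(ℝ, ℝ) 𝓘(ℝ, E) 1 γ (Icc a b))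
    (hab : a ≤ b) : gedist g (γ a) (γ b) ≤ glen g γ a b :=
  letI : RiemannianBundle (fun x : M => TangentSpace 𝓘(ℝ, E) x) := ⟨g.toRiemannianMetric⟩
  riemannianEDist_le_pathELength hγ rfl rfl hab

theorem exists_path {x y : M} {r : ℝ≥0∞} (h : gedist g x y < r) :
    ∃ γ : ℝ → M, γ 0 = x ∧ γ 1 = y ∧ ContMDiff 𝓘(ℝ, ℝ) 𝓘(ℝ, E) 1 γ ∧ glen g γ 0 1 < r := by
  letI : RiemannianBundle (fun x : M => TangentSpace 𝓘(ℝ, E) x) := ⟨g.toRiemannianMetric⟩
  obtain ⟨γ, h0, h1, hs, hl, -, -⟩ :=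
    exists_lt_locally_constant_of_riemannianEDist_lt (I := 𝓘(ℝ, E)) h zero_lt_one
  exact ⟨γ, h0, h1, hs, hl⟩

theorem glen_add {γ : ℝ → M} {a b c : ℝ} (h : a ≤ b) (h' : b ≤ c) :
    glen g γ a b + glen g γ b c = glen g γ a c :=
  letI : RiemannianBundle (fun x : M => TangentSpace 𝓘(ℝ, E) x) := ⟨g.toRiemannianMetric⟩
  pathELength_add h h'

/-- Local isometries do not increase the distance. -/
theorem gedist_map_le {h : M → M} (hh : IsLocalIsometry g h) (x y : M) :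
    gedist g (h x) (h y) ≤ gedist g x y := by
  refine le_of_forall_gt fun r hr => ?_
  obtain ⟨γ, h0, h1, hs, hl⟩ := exists_path hr
  subst h0 h1
  refine lt_of_le_of_lt ?_ hl
  refine (gedist_le (γ := h ∘ γ) (((hh.1.of_le (by norm_cast)).comp hs).contMDiffOn)
    zero_le_one).trans_eq ?_
  rw [glen_eq, glen_eq]
  refine setLIntegral_congr_fun measurableSet_Icc fun t _ => ?_
  congr 1
  unfold speed
  have hd : mfderiv 𝓘(ℝ, ℝ) 𝓘(ℝ, E) (h ∘ γ) t =
      (mfderiv 𝓘(ℝ, E) 𝓘(ℝ, E) h (γ t)).comp (mfderiv 𝓘(ℝ, ℝ) 𝓘(ℝ, E) γ t) :=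
    mfderiv_comp t (hh.1.mdifferentiableAt (by simp)) (hs.mdifferentiableAt one_ne_zero)
  simp only [hd]
  exact congrArg Real.sqrt (hh.2 (γ t) _ _)

theorem gedist_map_eq {h : M → M} (hh : IsLocalIsometry g h) {k : M → M}
    (hk : IsLocalIsometry g k) (hkh : ∀ x, k (h x) = x) (x y : M) :
    gedist g (h x) (h y) = gedist g x y := by
  refine le_antisymm (gedist_map_le hh x y) ?_
  have := gedist_map_le hk (h x) (h y)
  rwa [hkh, hkh] at this

variable [PreconnectedSpace M]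

theorem gedist_ne_top [T2Space M] [CompactSpace M] (x y : M) : gedist g x y ≠ ⊤ := by
  letI : RiemannianBundle (fun x : M => TangentSpace 𝓘(ℝ, E) x) := ⟨g.toRiemannianMetric⟩
  have : IsContinuousRiemannianBundle E (fun x : M => TangentSpace 𝓘(ℝ, E) x) :=
    ⟨g.inner, g.contMDiff.continuous, fun _ _ _ => rfl⟩
  letI : EMetricSpace M := EMetricSpace.ofRiemannianMetric 𝓘(ℝ, E) M
  show edist x y ≠ ⊤
  set A : Set M := {z | edist x z ≠ ⊤} with hA
  have ho : ∀ z : M, Metric.eball z 1 ∈ 𝓝 z := fun z => Metric.eball_mem_nhds z one_pos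
  have hopen : IsOpen A := isOpen_iff_mem_nhds.2 fun z hz => Filter.mem_of_superset (ho z) fun w hw => by
    refine ne_top_of_le_ne_top ?_ (edist_triangle x z w)
    exact ENNReal.add_ne_top.2 ⟨hz, ne_top_of_lt (Metric.mem_eball'.1 hw)⟩
  have hclosed : IsClosed A := isOpen_compl_iff.1 <| isOpen_iff_mem_nhds.2 fun z hz =>
    Filter.mem_of_superset (ho z) fun w hw hw' => hz <| by
      refine ne_top_of_le_ne_top ?_ (edist_triangle x w z)
      exact ENNReal.add_ne_top.2 ⟨hw', ne_top_of_lt (Metric.mem_eball.1 hw)⟩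
  have := (IsClopen.eq_univ ⟨hclosed, hopen⟩ ⟨x, by simp [hA]⟩)
  exact (Set.eq_univ_iff_forall.1 this y)

omit [PreconnectedSpace M] in
theorem gdist_le_of_gedist_le {x y : M} {r : ℝ} (hr : 0 ≤ r)
    (h : gedist g x y ≤ ENNReal.ofReal r) : gdist g x y ≤ r :=
  (ENNReal.toReal_mono ENNReal.ofReal_ne_top h).trans_eq (ENNReal.toReal_ofReal hr)

omit [PreconnectedSpace M] in
theorem gdist_map_eq {h : M → M} (hh : IsLocalIsometry g h) {k : M → M}
    (hk : IsLocalIsometry g k) (hkh : ∀ x, k (h x) = x) (x y : M) :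
    gdist g (h x) (h y) = gdist g x y := by
  rw [gdist, gdist, gedist_map_eq hh hk hkh]

variable [T2Space M] [CompactSpace M]

variable (g) in
/-- The metric space structure of `g`. -/
@[reducible] def gMetricSpace : MetricSpace M :=
  letI : RiemannianBundle (fun x : M => TangentSpace 𝓘(ℝ, E) x) := ⟨g.toRiemannianMetric⟩
  haveI : IsContinuousRiemannianBundle E (fun x : M => TangentSpace 𝓘(ℝ, E) x) :=
    ⟨g.inner, g.contMDiff.continuous, fun _ _ _ => rfl⟩
  letI : EMetricSpace M := EMetricSpace.ofRiemannianMetric 𝓘(ℝ, E) M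
  EMetricSpace.toMetricSpace fun x y => gedist_ne_top (g := g) x y

theorem gMetricSpace_dist (x y : M) : (gMetricSpace g).dist x y = gdist g x y := rfl

end

end Vale.Agent.P216.Chord
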