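import Vale.Agent.P216.Chord.Par

/-!
An involutive isometry with disconnected fixed set has a closed geodesic made of a shortest chord
between two components and its reflection.  A commuting flow of isometries moves it to infinitely
many closed geodesics.
-/

open Bundle Manifold Set Filter
open scoped ContDiff Topology NNReal

namespace Vale.Agent.P216.Chord

set_option maxSynthPendingDepth 3

noncomputable section

variable {E : Type*} [NormedAddCommGroup E] [NormedSpace ℝ E]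

/-- The Euler-Lagrange equation at the time `t`. -/
def EL (G : E → E →L[ℝ] E →L[ℝ] ℝ) (x : ℝ → E) (t : ℝ) : Prop :=
  ∀ v : E, deriv (fun s => G (x s) (deriv x s) v) t =
    (1 / 2 : ℝ) * fderiv ℝ (fun y => G y (deriv x t) (deriv x t)) (x t) v

variable {G : E → E →L[ℝ] E →L[ℝ] ℝ}

theorem EL.congr {x y : ℝ → E} {t : ℝ} (h : EL G x t) (he : y =ᶠ[𝓝 t] x) : EL G y t := by
  intro v
  have hd : deriv y t = deriv x t := he.deriv_eq
  have h2 : (fun s => G (y s) (deriv y s) v) =ᶠ[𝓝 t] fun s => G (x s) (deriv x s) v := by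
    filter_upwards [he, he.deriv] with s h1 h2
    rw [h1, h2]
  rw [h2.deriv_eq, hd, he.eq_of_nhds]
  exact h v

theorem EL.shift {x : ℝ → E} {t d : ℝ} (h : EL G x (t + d)) : EL G (fun s => x (s + d)) t := by
  intro v
  simp only [deriv_comp_add_const]
  exact (deriv_comp_add_const (f := fun s => G (x s) (deriv x s) v) (a := d) (x := t)).trans (h v)

theorem EL.rev {x : ℝ → E} {t d : ℝ} (h : EL G x (d - t)) : EL G (fun s => x (d - s)) t := by
  intro v
  simp only [deriv_comp_const_sub, map_neg, neg_apply, neg_neg]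
  rw [deriv.fun_neg, deriv_comp_const_sub (f := fun s => G (x s) (deriv x s) v), neg_neg]
  exact h v

variable {M : Type*} [TopologicalSpace M] [ChartedSpace E M] [IsManifold 𝓘(ℝ, E) ∞ M]

/-- The geodesic equation at one time. -/
def GeoAt (g : ContMDiffRiemannianMetric 𝓘(ℝ, E) ∞ E (fun x : M => TangentSpace 𝓘(ℝ, E) x))
    (c : ℝ → M) (t : ℝ) : Prop :=
  ContMDiffAt 𝓘(ℝ, ℝ) 𝓘(ℝ, E) ∞ c t ∧
    EL (metricInChart g (c t)) (fun s => extChartAt 𝓘(ℝ, E) (c t) (c s)) t

variable {g : ContMDiffRiemannianMetric 𝓘(ℝ, E) ∞ E (fun x : M => TangentSpace 𝓘(ℝ, E) x)}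

theorem isGeodesic_of_geoAt {c : ℝ → M} (h : ∀ t, GeoAt g c t) : IsGeodesic g c :=
  ⟨fun t => (h t).1, fun t v => (h t).2 v⟩

theorem GeoAt.congr {c c' : ℝ → M} {t : ℝ} (h : GeoAt g c t) (he : c' =ᶠ[𝓝 t] c) :
    GeoAt g c' t := by
  refine ⟨h.1.congr_of_eventuallyEq he, ?_⟩
  rw [he.eq_of_nhds]
  exact h.2.congr (he.fun_comp _)

theorem GeoAt.shift {c : ℝ → M} {t d : ℝ} (h : GeoAt g c (t + d)) :
    GeoAt g (fun s => c (s + d)) t :=
  ⟨h.1.comp t (contDiff_id.add contDiff_const).contMDiff.contMDiffAt, h.2.shift⟩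

theorem GeoAt.rev {c : ℝ → M} {t d : ℝ} (h : GeoAt g c (d - t)) :
    GeoAt g (fun s => c (d - s)) t :=
  ⟨h.1.comp t (contDiff_const.sub contDiff_id).contMDiff.contMDiffAt, h.2.rev⟩

variable [T2Space M] [CompactSpace M] [PreconnectedSpace M]

variable (g) in
theorem continuous_gdist : Continuous fun q : M × M => gdist g q.1 q.2 := by
  letI m : MetricSpace M := gMetricSpace g
  exact continuous_dist (α := M)

theorem gdist_self (x : M) : gdist g x x = 0 := by
  letI := gMetricSpace g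
  exact dist_self x

theorem gdist_comm (x y : M) : gdist g x y = gdist g y x := by
  letI := gMetricSpace g
  exact dist_comm x y

theorem gdist_triangle (x y z : M) : gdist g x z ≤ gdist g x y + gdist g y z := by
  letI := gMetricSpace g
  exact dist_triangle x y z

theorem gdist_nonneg (x y : M) : 0 ≤ gdist g x y := ENNReal.toReal_nonneg

theorem gdist_eq_zero {x y : M} : gdist g x y = 0 ↔ x = y := by
  letI := gMetricSpace g
  exact dist_eq_zero (x := x) (y := y)

/-- A point dividing the distance of two points. -/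
theorem exists_between (p q : M) {r : ℝ} (hr : 0 ≤ r) (hrd : r ≤ gdist g p q) :
    ∃ z, gdist g p z ≤ r ∧ gdist g z q ≤ gdist g p q - r := by
  have hc1 : Continuous fun z => gdist g p z :=
    (continuous_gdist g).comp (continuous_const.prodMk continuous_id)
  have hc2 : Continuous fun z => gdist g z q :=
    (continuous_gdist g).comp (continuous_id.prodMk continuous_const)
  set T : ℕ → Set M := fun n =>
    {z | gdist g p z = r ∧ gdist g z q ≤ gdist g p q - r + 1 / ((n : ℝ) + 1)}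
  have hT : ∀ n, IsClosed (T n) := fun n =>
    (isClosed_eq hc1 continuous_const).inter (isClosed_le hc2 continuous_const)
  have hne : ∀ n, (T n).Nonempty := by
    intro n
    set e : ℝ := 1 / ((n : ℝ) + 1)
    have he : 0 < e := by positivity
    have hlt : gedist g p q < ENNReal.ofReal (gdist g p q + e) := by
      rw [gdist, ENNReal.lt_ofReal_iff_toReal_lt (gedist_ne_top p q)]
      linarith
    obtain ⟨γ, h0, h1, hs, hl⟩ := exists_path hlt
    obtain ⟨τ, hτ, hτr⟩ : r ∈ (fun τ => gdist g p (γ τ)) '' Icc 0 1 :=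
      intermediate_value_Icc zero_le_one (hc1.comp hs.continuous).continuousOn
        (by simp only [Function.comp_apply, h0, h1, gdist_self]; exact ⟨hr, hrd⟩)
    refine ⟨γ τ, hτr, ?_⟩
    have hA := gedist_le (g := g) (hs.contMDiffOn (s := Icc 0 τ)) hτ.1
    have hB := gedist_le (g := g) (hs.contMDiffOn (s := Icc τ 1)) hτ.2
    have hsum := (add_le_add hA hB).trans ((glen_add hτ.1 hτ.2).trans_le hl.le)
    rw [h0, h1] at hsum
    have := ENNReal.toReal_mono ENNReal.ofReal_ne_top hsum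
    rw [ENNReal.toReal_add (gedist_ne_top _ _) (gedist_ne_top _ _),
      ENNReal.toReal_ofReal (by linarith [gdist_nonneg (g := g) p q])] at this
    simp only [gdist] at hτr this ⊢
    linarith
  obtain ⟨z, hz⟩ := IsCompact.nonempty_iInter_of_sequence_nonempty_isCompact_isClosed T
    (fun n z hz => ⟨hz.1, hz.2.trans (add_le_add le_rfl (by
      refine one_div_le_one_div_of_le (by positivity) ?_
      push_cast; linarith))⟩) hne (hT 0).isCompact hT
  refine ⟨z, (mem_iInter.1 hz 0).1.le, le_of_forall_pos_le_add fun ε hε => ?_⟩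
  obtain ⟨n, hn⟩ := exists_nat_one_div_lt hε
  linarith [(mem_iInter.1 hz n).2]

/-- A shortest curve between two points. -/
theorem exists_segment (a b : M) : ∃ c : ℝ → M, c 0 = a ∧ c 1 = b ∧
    ∀ s ∈ Icc (0 : ℝ) 1, ∀ t ∈ Icc (0 : ℝ) 1, gdist g (c s) (c t) = gdist g a b * |s - t| := by
  set L := gdist g a b
  have hL : 0 ≤ L := gdist_nonneg a b
  have hstep : ∀ (n : ℕ) (p : M), ∃ q, gdist g p q ≤ L / n ∧
      gdist g q b ≤ max (gdist g p b - L / n) 0 := by
    intro n p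
    rcases le_total (gdist g p b) (L / n) with h | h
    · exact ⟨b, h, by rw [gdist_self]; exact le_max_right _ _⟩
    · obtain ⟨q, h1, h2⟩ := exists_between (g := g) p b (r := L / n) (by positivity) h
      exact ⟨q, h1, h2.trans (le_max_left _ _)⟩
  choose F hF1 hF2 using hstep
  set x : ℕ → ℕ → M := fun n k => (F n)^[k] a with hx
  have hxs : ∀ n k, x n (k + 1) = F n (x n k) := fun n k => Function.iterate_succ_apply' (F n) k a
  have hx0 : ∀ n, x n 0 = a := fun n => rfl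
  have hstep' : ∀ n i j, gdist g (x n i) (x n (i + j)) ≤ j * (L / n) := by
    intro n i j
    induction j with
    | zero => simp [gdist_self]
    | succ j ih =>
      rw [← add_assoc, hxs]
      push_cast
      linarith [gdist_triangle (g := g) (x n i) (x n (i + j)) (F n (x n (i + j))),
        hF1 n (x n (i + j))]
  have hxb : ∀ n, 0 < n → x n n = b := by
    intro n hn
    have hn' : (0 : ℝ) < n := Nat.cast_pos.2 hn
    have : ∀ k, gdist g (x n k) b ≤ max (L - k * (L / n)) 0 := by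
      intro k
      induction k with
      | zero => simp [hx0, L]
      | succ k ih =>
        rw [hxs]
        refine (hF2 n (x n k)).trans (max_le ?_ (le_max_right _ _))
        push_cast
        rcases le_total (L - k * (L / n)) 0 with h | h
        · rw [max_eq_right h] at ih
          exact le_max_of_le_right (by linarith [div_nonneg hL hn'.le])
        · rw [max_eq_left h] at ih
          exact le_max_of_le_left (by linarith)
    have := this n
    rw [mul_div_cancel₀ L hn'.ne', sub_self, max_self] at this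
    exact gdist_eq_zero.1 (le_antisymm this (gdist_nonneg _ _))
  let u : Ultrafilter ℕ := Ultrafilter.of atTop
  have hu : (u : Filter ℕ) ≤ atTop := Ultrafilter.of_le _
  set cn : ℕ → ℝ → M := fun n s => x n ⌊s * n⌋₊
  have hlim : ∀ s, ∃ p, Tendsto (fun n => cn n s) u (𝓝 p) := fun s => by
    obtain ⟨p, -, hp⟩ := isCompact_univ.ultrafilter_le_nhds (u.map fun n => cn n s) (by simp)
    exact ⟨p, hp⟩
  choose c hc using hlim
  have hc0 : c 0 = a := by
    refine tendsto_nhds_unique (hc 0) (tendsto_const_nhds.congr fun n => ?_)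
    simp [cn, hx0]
  have hc1 : c 1 = b := by
    refine tendsto_nhds_unique (hc 1) (tendsto_const_nhds.congr' ?_)
    filter_upwards [hu (eventually_gt_atTop 0)] with n hn
    simp [cn, hxb n hn]
  have hle : ∀ s t, 0 ≤ s → s ≤ t → gdist g (c s) (c t) ≤ L * (t - s) := by
    intro s t hs hst
    have hl : Tendsto (fun n => gdist g (cn n s) (cn n t)) u (𝓝 (gdist g (c s) (c t))) :=
      ((continuous_gdist g).tendsto (c s, c t)).comp ((hc s).prodMk_nhds (hc t))
    have hr : Tendsto (fun n : ℕ => L * (t - s) + L / n) u (𝓝 (L * (t - s))) := by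
      have := (tendsto_const_div_atTop_nhds_zero_nat L).const_add (L * (t - s))
      rw [add_zero] at this
      exact this.mono_left hu
    refine le_of_tendsto_of_tendsto hl hr ?_
    filter_upwards [hu (eventually_gt_atTop 0)] with n hn
    have hn' : (0 : ℝ) < n := Nat.cast_pos.2 hn
    have hij : ⌊s * (n : ℝ)⌋₊ ≤ ⌊t * (n : ℝ)⌋₊ := Nat.floor_mono (by gcongr)
    obtain ⟨j, hj⟩ := Nat.exists_eq_add_of_le hij
    have := hstep' n ⌊s * (n : ℝ)⌋₊ j
    rw [← hj] at this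
    refine this.trans ?_
    have h1 := Nat.floor_le (mul_nonneg (hs.trans hst) hn'.le : (0 : ℝ) ≤ t * n)
    have h2 := Nat.lt_floor_add_one (s * (n : ℝ))
    rw [hj] at h1
    push_cast at h1
    calc (j : ℝ) * (L / n) ≤ ((t - s) * n + 1) * (L / n) :=
          mul_le_mul_of_nonneg_right (by linarith) (by positivity)
      _ = L * (t - s) + L / n := by field_simp
  have heq : ∀ s t, 0 ≤ s → s ≤ t → t ≤ 1 → gdist g (c s) (c t) = L * (t - s) := by
    intro s t hs hst ht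
    refine le_antisymm (hle s t hs hst) ?_
    have e1 := hle 0 s le_rfl hs
    have e2 := hle t 1 (hs.trans hst) ht
    rw [hc0] at e1
    rw [hc1] at e2
    linarith [gdist_triangle (g := g) a (c s) b, gdist_triangle (g := g) (c s) (c t) b]
  refine ⟨c, hc0, hc1, fun s hs t ht => ?_⟩
  rcases le_total s t with h | h
  · rw [heq s t hs.1 h ht.2, abs_sub_comm, abs_of_nonneg (sub_nonneg.2 h)]
  · rw [gdist_comm, heq t s ht.1 h hs.2, abs_of_nonneg (sub_nonneg.2 h)]

/-- A segment of length `L`, parametrised by `[0, 1]`. -/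
def IsSegment (g : ContMDiffRiemannianMetric 𝓘(ℝ, E) ∞ E (fun x : M => TangentSpace 𝓘(ℝ, E) x))
    (L : ℝ) (c : ℝ → M) : Prop :=
  ∀ s ∈ Icc (0 : ℝ) 1, ∀ t ∈ Icc (0 : ℝ) 1, gdist g (c s) (c t) = L * |s - t|

theorem IsSegment.nonneg {L : ℝ} {c : ℝ → M} (h : IsSegment g L c) : 0 ≤ L := by
  have := h 0 ⟨le_rfl, zero_le_one⟩ 1 ⟨zero_le_one, le_rfl⟩
  simp at this
  linarith [gdist_nonneg (g := g) (c 0) (c 1)]

theorem IsSegment.continuousOn {L : ℝ} {c : ℝ → M} (h : IsSegment g L c) :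
    ContinuousOn c (Icc 0 1) := by
  letI := gMetricSpace g
  exact (LipschitzOnWith.of_dist_le_mul (K := L.toNNReal) fun s hs t ht => by
    rw [Real.coe_toNNReal L h.nonneg, Real.dist_eq]
    exact (h s hs t ht).le).continuousOn

variable [FiniteDimensional ℝ E]

/-- Inside, a segment solves the geodesic equation in every parametrisation. -/
theorem IsSegment.interior {L : ℝ} {c : ℝ → M} (h : IsSegment g L c) (P : Par E M) {t : ℝ}
    (ht : t ∈ Ioo (0 : ℝ) 1) (hP : c t ∈ P.W) :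
    ContMDiffAt 𝓘(ℝ, ℝ) 𝓘(ℝ, E) ∞ c t ∧ EL (P.pull g) (fun s => P.φ (c s)) t := by
  obtain ⟨ρ, hρ, hρU, hmin⟩ := P.isMin (g := g) (P.mapsφ hP)
  have hct : ContinuousAt c t := h.continuousOn.continuousAt (Icc_mem_nhds ht.1 ht.2)
  have hev : ∀ᶠ s in 𝓝 t, (c s ∈ P.W ∧ P.φ (c s) ∈ Metric.ball (P.φ (c t)) ρ) ∧ s ∈ Ioo (0 : ℝ) 1 :=
    ((hct.eventually_mem (P.openW.mem_nhds hP)).and
      (((P.smoothφ.continuousOn.continuousAt (P.openW.mem_nhds hP)).comp hct).eventually_mem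
        (Metric.ball_mem_nhds _ hρ))).and (Ioo_mem_nhds ht.1 ht.2)
  obtain ⟨δ, hδ, hδs⟩ := Metric.nhds_basis_closedBall.mem_iff.1 hev
  rw [Real.closedBall_eq_Icc] at hδs
  have hlt : t - δ < t + δ := by linarith
  have hI : ∀ s ∈ Icc (t - δ) (t + δ), s ∈ Icc (0 : ℝ) 1 := fun s hs =>
    Ioo_subset_Icc_self (hδs hs).2
  have hm := hmin c (t - δ) (t + δ) L ((⊥ : Submodule ℝ E) : Set E) hlt h.nonneg
    (fun s hs => (hδs hs).1) (fun s hs r hr => h s (hI s hs) r (hI r hr)) (fun e he heT => by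
      have he' : e = P.φ (c (t - δ)) := sub_eq_zero.1 (by simpa using heT)
      rw [he', P.right _ (hδs ⟨le_rfl, hlt.le⟩).1.1,
        h _ (hI _ ⟨le_rfl, hlt.le⟩) _ (hI _ ⟨hlt.le, le_rfl⟩), abs_sub_comm,
        abs_of_nonneg (by linarith)])
  obtain ⟨Q, hQ, -⟩ := hm.exists_momentum P.isMetricOn
  have hmem : t ∈ Ioo (t - δ) (t + δ) := ⟨by linarith, by linarith⟩
  obtain ⟨hsm, hel⟩ := solution_smooth P.isMetricOn (isOpen_Ioo (a := t - δ) (b := t + δ))
    (fun s hs => hρU (hδs (Ioo_subset_Icc_self hs)).1.2)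
    (fun s hs => (hQ s (Ioo_subset_Icc_self hs)).hasDerivAt (Icc_mem_nhds hs.1 hs.2))
  refine ⟨?_, fun v => hel t hmem v⟩
  have hx := (hsm.contDiffAt (Ioo_mem_nhds hmem.1 hmem.2)).contMDiffAt
  refine ((P.smoothψ.contMDiffAt (P.openU.mem_nhds (P.mapsφ hP))).comp t hx).congr_of_eventuallyEq
    ?_
  filter_upwards [Ioo_mem_nhds hmem.1 hmem.2] with s hs
  exact (P.right _ (hδs (Ioo_subset_Icc_self hs)).1.1).symm

theorem IsSegment.geoAt {L : ℝ} {c : ℝ → M} (h : IsSegment g L c) {t : ℝ}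
    (ht : t ∈ Ioo (0 : ℝ) 1) : GeoAt g c t := by
  obtain ⟨h1, h2⟩ := h.interior (Par.chart (c t)) ht (mem_extChartAt_source (c t))
  rw [Par.chart_pull] at h2
  exact ⟨h1, h2⟩

/-- An involutive isometry whose fixed set is the disjoint union of the closed sets `A` and `B`. -/
structure Refl (g : ContMDiffRiemannianMetric 𝓘(ℝ, E) ∞ E (fun x : M => TangentSpace 𝓘(ℝ, E) x))
    (σ : M → M) (A B : Set M) : Prop where
  iso : IsLocalIsometry g σ
  inv : ∀ x, σ (σ x) = x
  fix : ∀ x, σ x = x ↔ x ∈ A ∨ x ∈ B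
  closedB : IsClosed B
  closedA : IsClosed A
  disj : Disjoint A B

theorem Refl.swap {σ : M → M} {A B : Set M} (h : Refl g σ A B) : Refl g σ B A :=
  ⟨h.iso, h.inv, fun x => (h.fix x).trans or_comm, h.closedA, h.closedB, h.disj.symm⟩

/-- Coordinates in which the involution is linear. -/
theorem Refl.exists_par {σ : M → M} {A B : Set M} (h : Refl g σ A B) {a : M} (ha : a ∈ A) :
    ∃ (P : Par E M) (S : E →L[ℝ] E), a ∈ P.W ∧ (∀ y, S (S y) = y) ∧
      (∀ y ∈ P.U, S y ∈ P.U ∧ P.ψ (S y) = σ (P.ψ y)) ∧ ∀ m ∈ P.W, m ∉ B := by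
  have : CompleteSpace E := FiniteDimensional.complete ℝ E
  have hσa : σ a = a := (h.fix a).2 (Or.inl ha)
  set C := Par.chart (E := E) a
  have haC : a ∈ C.W := mem_extChartAt_source a
  set k : E → E := fun y => C.φ (σ (C.ψ y))
  set U₀ : Set E := C.U ∩ (fun y => σ (C.ψ y)) ⁻¹' C.W
  have hU₀ : IsOpen U₀ :=
    (h.iso.1.continuous.comp_continuousOn C.smoothψ.continuousOn).isOpen_inter_preimage C.openU
      C.openW
  set y₀ := C.φ a
  have hy₀ : y₀ ∈ U₀ := ⟨C.mapsφ haC, by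
    show σ (C.ψ (C.φ a)) ∈ C.W
    rw [C.right a haC, hσa]; exact haC⟩
  have hk : ContDiffOn ℝ ∞ k U₀ := contMDiffOn_iff_contDiffOn.1
    (C.smoothφ.comp (h.iso.1.comp_contMDiffOn (C.smoothψ.mono inter_subset_left))
      fun y hy => hy.2)
  have hkk : ∀ y ∈ U₀, k (k y) = y := fun y hy => by
    show C.φ (σ (C.ψ (C.φ (σ (C.ψ y))))) = y
    rw [C.right _ hy.2, h.inv, C.left _ hy.1]
  have hky₀ : k y₀ = y₀ := by
    show C.φ (σ (C.ψ (C.φ a))) = C.φ a
    rw [C.right a haC, hσa]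
  set S := fderiv ℝ k y₀
  have hkd : HasFDerivAt k S y₀ :=
    ((hk.differentiableOn (by simp)).differentiableAt (hU₀.mem_nhds hy₀)).hasFDerivAt
  have hSS : ∀ y, S (S y) = y := fun y => by
    have h1 : HasFDerivAt (fun z => k (k z)) (S.comp S) y₀ := (hky₀.symm ▸ hkd).comp y₀ hkd
    have h2 : HasFDerivAt (fun z => k (k z)) (ContinuousLinearMap.id ℝ E) y₀ :=
      (hasFDerivAt_id y₀).congr_of_eventuallyEq (eventually_of_mem (hU₀.mem_nhds hy₀) hkk)
    exact congrArg (fun T : E →L[ℝ] E => T y) (h1.unique h2)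
  set f : E → E := fun y => (2⁻¹ : ℝ) • (y + S (k y))
  have hf : ContDiffOn ℝ ∞ f U₀ := (contDiffOn_id.add (S.contDiff.comp_contDiffOn hk)).const_smul _
  have hfd : HasFDerivAt f ((ContinuousLinearEquiv.refl ℝ E : E ≃L[ℝ] E) : E →L[ℝ] E) y₀ := by
    refine (((hasFDerivAt_id y₀).add (S.hasFDerivAt.comp y₀ hkd)).const_smul (2⁻¹ : ℝ)).congr_fderiv
      ?_
    ext y
    simp [hSS, smul_add, ← add_smul]
    norm_num
  have hfa : ContDiffAt ℝ ∞ f y₀ := hf.contDiffAt (hU₀.mem_nhds hy₀)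
  set H := hfa.toOpenPartialHomeomorph f hfd (by simp)
  have hHf : (H : E → E) = f := hfa.toOpenPartialHomeomorph_coe hfd (by simp)
  set V : Set E := H.source ∩ (U₀ ∩ fderiv ℝ f ⁻¹' range ((↑) : (E ≃L[ℝ] E) → E →L[ℝ] E))
  have hV : IsOpen V := H.open_source.inter
    ((hf.continuousOn_fderiv_of_isOpen hU₀ (by simp)).isOpen_inter_preimage hU₀
      ContinuousLinearEquiv.isOpen)
  have hy₀V : y₀ ∈ V := ⟨hfa.mem_toOpenPartialHomeomorph_source hfd (by simp), hy₀,
    ⟨ContinuousLinearEquiv.refl ℝ E, hfd.fderiv.symm⟩⟩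
  have hHsymm : ∀ y ∈ V, ContDiffAt ℝ ∞ H.symm (f y) := fun y hy => by
    obtain ⟨e, he⟩ := hy.2.2
    have hd := ((hf.differentiableOn (by simp)).differentiableAt (hU₀.mem_nhds hy.2.1)).hasFDerivAt
    refine H.contDiffAt_symm (f₀' := e) ?_ ?_ ?_
    · rw [← hHf]; exact H.map_source hy.1
    · rw [← hHf, H.left_inv hy.1, hHf, he]; exact hd
    · rw [← hHf, H.left_inv hy.1, hHf]; exact hf.contDiffAt (hU₀.mem_nhds hy.2.1)
  set W₀ : Set M := (C.W ∩ C.φ ⁻¹' V) ∩ Bᶜ
  have hW₀ : IsOpen W₀ :=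
    (C.smoothφ.continuousOn.isOpen_inter_preimage C.openW hV).inter h.closedB.isOpen_compl
  set W : Set M := W₀ ∩ σ ⁻¹' W₀
  have hW : IsOpen W := hW₀.inter (hW₀.preimage h.iso.1.continuous)
  have hWσ : ∀ m ∈ W, σ m ∈ W := fun m hm => ⟨hm.2, by
    show σ (σ m) ∈ W₀
    rw [h.inv]; exact hm.1⟩
  have hle : ∀ m ∈ W, C.φ m ∈ V := fun m hm => hm.1.1.2
  set U : Set E := H '' (C.U ∩ V ∩ C.ψ ⁻¹' W)
  have hsub : C.U ∩ V ∩ C.ψ ⁻¹' W ⊆ H.source := fun y hy => hy.1.2.1
  have hU : IsOpen U := H.isOpen_image_of_subset_source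
    ((C.smoothψ.continuousOn.mono inter_subset_left).isOpen_inter_preimage (C.openU.inter hV) hW)
    hsub
  have hinv : ∀ z ∈ U, H.symm z ∈ C.U ∩ V ∩ C.ψ ⁻¹' W ∧ f (H.symm z) = z := by
    rintro _ ⟨y, hy, rfl⟩
    rw [H.left_inv (hsub hy)]
    exact ⟨hy, (congrFun hHf y).symm⟩
  refine ⟨{
    U := U
    W := W
    ψ := fun z => C.ψ (H.symm z)
    φ := fun m => f (C.φ m)
    openU := hU
    openW := hW
    mapsψ := fun z hz => (hinv z hz).1.2
    mapsφ := fun m hm => ⟨C.φ m, ⟨⟨C.mapsφ hm.1.1.1, hle m hm⟩, by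
      show C.ψ (C.φ m) ∈ W
      rw [C.right m hm.1.1.1]; exact hm⟩, congrFun hHf _⟩
    left := fun z hz => by rw [C.left _ (hinv z hz).1.1.1]; exact (hinv z hz).2
    right := fun m hm => by
      rw [← hHf, H.left_inv (hle m hm).1, C.right m hm.1.1.1]
    smoothψ := C.smoothψ.comp (contMDiffOn_iff_contDiffOn.2 fun z hz => by
      have := hHsymm _ (hinv z hz).1.1.2
      rw [(hinv z hz).2] at this
      exact this.contDiffWithinAt) fun z hz => (hinv z hz).1.1.1
    smoothφ := (contMDiffOn_iff_contDiffOn.2 hf).comp (C.smoothφ.mono fun m hm => hm.1.1.1)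
      fun m hm => (hle m hm).2.1 }, S, ?_, hSS, ?_, fun m hm => hm.1.2⟩
  · have ha0 : a ∈ W₀ := ⟨⟨haC, hy₀V⟩, Set.disjoint_left.1 h.disj ha⟩
    exact ⟨ha0, by rw [mem_preimage, hσa]; exact ha0⟩
  · intro z hz
    obtain ⟨⟨⟨hyU, hyV⟩, hyW⟩, hfz⟩ := hinv z hz
    set y := H.symm z
    have hσW : σ (C.ψ y) ∈ W := hWσ _ hyW
    have hkV : k y ∈ V := hle _ hσW
    have he : f (k y) = S z := by
      rw [← hfz]
      show (2⁻¹ : ℝ) • (k y + S (k (k y))) = S ((2⁻¹ : ℝ) • (y + S (k y)))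
      rw [hkk y hyV.2.1, map_smul, map_add, hSS, add_comm]
    have hp : C.ψ (k y) = σ (C.ψ y) := C.right _ hσW.1.1.1
    refine ⟨⟨k y, ⟨⟨C.mapsφ hσW.1.1.1, hkV⟩, ?_⟩, (congrFun hHf _).trans he⟩, ?_⟩
    · show C.ψ (k y) ∈ W
      rw [hp]; exact hσW
    · show C.ψ (H.symm (S z)) = σ (C.ψ y)
      rw [← he, ← hHf, H.left_inv hkV.1, hp]

/-- A shortest segment from `A` to `B`. -/
structure IsChord (g : ContMDiffRiemannianMetric 𝓘(ℝ, E) ∞ E (fun x : M => TangentSpace 𝓘(ℝ, E) x))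
    (A B : Set M) (L : ℝ) (c : ℝ → M) : Prop where
  seg : IsSegment g L c
  left : c 0 ∈ A
  right : c 1 ∈ B
  min : ∀ a ∈ A, ∀ b ∈ B, L ≤ gdist g a b

theorem IsChord.swap {A B : Set M} {L : ℝ} {c : ℝ → M} (h : IsChord g A B L c) :
    IsChord g B A L fun t => c (1 - t) where
  seg s hs t ht := by
    rw [h.seg (1 - s) ⟨by linarith [hs.2], by linarith [hs.1]⟩ (1 - t)
      ⟨by linarith [ht.2], by linarith [ht.1]⟩, abs_sub_comm s t]
    congr 2
    ring
  left := by simpa using h.right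
  right := by simpa using h.left
  min a ha b hb := by rw [gdist_comm]; exact h.min b hb a ha

theorem IsChord.map {A B : Set M} {L : ℝ} {c : ℝ → M} (h : IsChord g A B L c) {f : M → M}
    (hd : ∀ x y, gdist g (f x) (f y) = gdist g x y) (hA : ∀ x ∈ A, f x ∈ A)
    (hB : ∀ x ∈ B, f x ∈ B) : IsChord g A B L fun t => f (c t) :=
  ⟨fun s hs t ht => (hd _ _).trans (h.seg s hs t ht), hA _ h.left, hB _ h.right, h.min⟩

/-- One period of the reflected curve. -/
def fold (σ : M → M) (c : ℝ → M) (t : ℝ) : M := if 0 ≤ t then c t else σ (c (-t))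

/-- The periodic reflected curve. -/
def hat (σ : M → M) (c : ℝ → M) (t : ℝ) : M :=
  fold σ c (toIcoMod (two_pos : (0 : ℝ) < 2) (-1) t)

/-- At the joint the reflected curve is a geodesic. -/
theorem IsChord.geoAt_zero {σ : M → M} {A B : Set M} (hσ : Refl g σ A B) {L : ℝ} {c : ℝ → M}
    (h : IsChord g A B L c) : GeoAt g (fold σ c) 0 := by
  obtain ⟨P, S, haW, hSS, hSP, hPB⟩ := hσ.exists_par h.left
  have hσa : σ (c 0) = c 0 := (hσ.fix _).2 (Or.inl h.left)
  have hfix0 : S (P.φ (c 0)) = P.φ (c 0) := by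
    obtain ⟨h1, h2⟩ := hSP _ (P.mapsφ haW)
    rw [P.right _ haW, hσa] at h2
    have h3 := congrArg P.φ h2
    rwa [P.left _ h1] at h3
  have hinv : ∀ y ∈ P.U, ∀ u w, P.pull g (S y) (S u) (S w) = P.pull g y u w := by
    intro y hy u w
    have hψ := (P.smoothψ.contMDiffAt (P.openU.mem_nhds hy)).mdifferentiableAt
      (by simp : (∞ : WithTop ℕ∞) ≠ 0)
    have hψ' := (P.smoothψ.contMDiffAt (P.openU.mem_nhds (hSP y hy).1)).mdifferentiableAt
      (by simp : (∞ : WithTop ℕ∞) ≠ 0)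
    have he : P.ψ ∘ S =ᶠ[𝓝 y] σ ∘ P.ψ :=
      eventually_of_mem (P.openU.mem_nhds hy) fun z hz => (hSP z hz).2
    have hS : MDifferentiableAt 𝓘(ℝ, E) 𝓘(ℝ, E) S y :=
      mdifferentiableAt_iff_differentiableAt.2 S.differentiableAt
    have hd := he.mfderiv_eq (I := 𝓘(ℝ, E)) (I' := 𝓘(ℝ, E))
    rw [mfderiv_comp y hψ' hS, mfderiv_comp y (hσ.iso.1.mdifferentiableAt (by simp)) hψ,
      mfderiv_eq_fderiv, S.fderiv] at hd
    have hd' : ∀ v : E, mfderiv 𝓘(ℝ, E) 𝓘(ℝ, E) P.ψ (S y) (S v) =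
        mfderiv 𝓘(ℝ, E) 𝓘(ℝ, E) σ (P.ψ y) (mfderiv 𝓘(ℝ, E) 𝓘(ℝ, E) P.ψ y v) := fun v =>
      congrArg (fun T : E →L[ℝ] E => T v) hd
    rw [P.pull_apply, P.pull_apply, hd', hd', ← hσ.iso.2 (P.ψ y), (hSP y hy).2]
  obtain ⟨ρ, hρ, hρU, hmin⟩ := P.isMin (g := g) (P.mapsφ haW)
  have hct : ContinuousWithinAt c (Icc 0 1) 0 := h.seg.continuousOn 0 ⟨le_rfl, zero_le_one⟩
  have hev : ∀ᶠ s in 𝓝[Icc 0 1] (0 : ℝ), c s ∈ P.W ∧ P.φ (c s) ∈ Metric.ball (P.φ (c 0)) ρ :=
    (hct.eventually_mem (P.openW.mem_nhds haW)).and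
      (((P.smoothφ.continuousOn.continuousAt (P.openW.mem_nhds haW)).comp_continuousWithinAt
        hct).eventually_mem (Metric.ball_mem_nhds _ hρ))
  obtain ⟨η, hη, hηs⟩ := Metric.mem_nhdsWithin_iff.1 hev
  set δ := Min.min (η / 2) 1
  have hδ : 0 < δ := lt_min (by linarith) one_pos
  have hδ1 : δ ≤ 1 := min_le_right _ _
  have hI : ∀ s ∈ Icc (0 : ℝ) δ, s ∈ Icc (0 : ℝ) 1 := fun s hs => ⟨hs.1, hs.2.trans hδ1⟩
  have hgood : ∀ s ∈ Icc (0 : ℝ) δ, c s ∈ P.W ∧ P.φ (c s) ∈ Metric.ball (P.φ (c 0)) ρ :=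
    fun s hs => hηs ⟨by
      rw [Metric.mem_ball, Real.dist_eq, sub_zero, abs_of_nonneg hs.1]
      linarith [hs.2, min_le_left (η / 2) 1], hI s hs⟩
  set T : Submodule ℝ E := LinearMap.ker ((S - ContinuousLinearMap.id ℝ E : E →L[ℝ] E) : E →ₗ[ℝ] E)
  have hT : ∀ v, v ∈ T ↔ S v = v := fun v => by simp [T, sub_eq_zero]
  have hm := hmin c 0 δ L (T : Set E) hδ h.seg.nonneg hgood
    (fun s hs r hr => h.seg s (hI s hs) r (hI r hr)) (fun e he heT => by
      have hSe : S e = e := by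
        have := (hT _).1 heT
        rwa [map_sub, hfix0, sub_left_inj] at this
      have hA : P.ψ e ∈ A := ((hσ.fix _).1 (by rw [← (hSP e he).2, hSe])).resolve_right
        (hPB _ (P.mapsψ he))
      have h1 := h.min _ hA _ h.right
      have h2 := h.seg δ (hI δ ⟨hδ.le, le_rfl⟩) 1 ⟨zero_le_one, le_rfl⟩
      rw [abs_sub_comm, abs_of_nonneg (by linarith)] at h2
      linarith [gdist_triangle (g := g) (P.ψ e) (c δ) (c 1)])
  obtain ⟨Q, hQ, hQ0⟩ := hm.exists_momentum P.isMetricOn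
  have hr := reflect P.isMetricOn S hSS (fun y hy => (hSP y hy).1) hinv hδ
    (fun s hs => hρU (hgood s hs).2) hQ hfix0 (fun v hv => hQ0 v ((hT v).2 hv))
  set x : ℝ → E := fun s => if 0 ≤ s then P.φ (c s) else S (P.φ (c (-s)))
  have hxU : ∀ s ∈ Ioo (-δ) δ, x s ∈ P.U ∧ P.ψ (x s) = fold σ c s := by
    intro s hs
    by_cases h0 : 0 ≤ s
    · have hW := (hgood s ⟨h0, hs.2.le⟩).1
      simp only [x, fold, h0, if_true]
      exact ⟨P.mapsφ hW, P.right _ hW⟩
    · have hW := (hgood (-s) ⟨by linarith, by linarith [hs.1]⟩).1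
      simp only [x, fold, h0, if_false]
      refine ⟨(hSP _ (P.mapsφ hW)).1, ?_⟩
      rw [(hSP _ (P.mapsφ hW)).2, P.right _ hW]
  obtain ⟨hsm, -⟩ := solution_smooth P.isMetricOn (isOpen_Ioo (a := -δ) (b := δ))
    (fun s hs => (hxU s hs).1) hr
  have hF : ContMDiffOn 𝓘(ℝ, ℝ) 𝓘(ℝ, E) ∞ (fold σ c) (Ioo (-δ) δ) :=
    (P.smoothψ.comp (contMDiffOn_iff_contDiffOn.2 hsm) fun s hs => (hxU s hs).1).congr
      fun s hs => (hxU s hs).2.symm
  have h0 : (0 : ℝ) ∈ Ioo (-δ) δ := ⟨by linarith, hδ⟩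
  refine ⟨hF.contMDiffAt (Ioo_mem_nhds h0.1 h0.2), ?_⟩
  have hF0 : fold σ c 0 = c 0 := by simp [fold]
  rw [hF0, ← Par.chart_pull]
  set C := Par.chart (E := E) (c 0)
  show EL (C.pull g) (fun s => C.φ (fold σ c s)) 0
  set y : ℝ → E := fun s => C.φ (fold σ c s)
  set J : Set ℝ := Ioo (-δ) δ ∩ fold σ c ⁻¹' C.W
  have hJ : IsOpen J := hF.continuousOn.isOpen_inter_preimage isOpen_Ioo C.openW
  have h0J : (0 : ℝ) ∈ J := ⟨h0, by rw [mem_preimage, hF0]; exact mem_extChartAt_source (c 0)⟩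
  have hy : ContDiffOn ℝ ∞ y J := contMDiffOn_iff_contDiffOn.1
    (C.smoothφ.comp (hF.mono inter_subset_left) fun s hs => hs.2)
  have hyU : ∀ s ∈ J, y s ∈ C.U := fun s hs => C.mapsφ hs.2
  have hG := C.isMetricOn (g := g)
  have hy' : ContDiffOn ℝ ∞ (deriv y) J := hy.deriv_of_isOpen hJ (by simp)
  intro v
  have hLc : ContinuousOn (deriv fun s => C.pull g (y s) (deriv y s) v) J :=
    ((((hG.smooth.comp hy hyU).clm_apply hy').clm_apply contDiffOn_const)).continuousOn_deriv_of_isOpen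
      hJ (by simp)
  have hRc : ContinuousOn (fun s => force (C.pull g) (y s) (deriv y s) v) J := by
    simp only [force_apply]
    exact continuousOn_const.mul ((((((hG.smooth.continuousOn_fderiv_of_isOpen hG.isOpen
      (by simp)).comp hy.continuousOn hyU).clm_apply continuousOn_const)).clm_apply
      hy'.continuousOn).clm_apply hy'.continuousOn)
  have hforce : ∀ s ∈ J, force (C.pull g) (y s) (deriv y s) v =
      (1 / 2 : ℝ) * fderiv ℝ (fun z => C.pull g z (deriv y s) (deriv y s)) (y s) v := by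
    intro s hs
    have hGd := ((hG.smooth.differentiableOn (by simp)).differentiableAt
      (hG.isOpen.mem_nhds (hyU s hs))).hasFDerivAt
    rw [((hGd.clm_apply (hasFDerivAt_const (deriv y s) (y s))).clm_apply
      (hasFDerivAt_const (deriv y s) (y s))).fderiv, force_apply]
    simp
  rw [← hforce 0 h0J]
  have hev : ∀ᶠ s in 𝓝[>] (0 : ℝ), deriv (fun r => C.pull g (y r) (deriv y r) v) s =
      force (C.pull g) (y s) (deriv y s) v := by
    filter_upwards [mem_nhdsWithin_of_mem_nhds (hJ.mem_nhds h0J), self_mem_nhdsWithin]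
      with s hs hs0
    have hs0' : 0 < s := hs0
    have he : fold σ c =ᶠ[𝓝 s] c :=
      eventually_of_mem (Ioi_mem_nhds hs0') fun r hr => if_pos (le_of_lt hr)
    have hcW : c s ∈ C.W := by rw [← he.eq_of_nhds]; exact hs.2
    obtain ⟨-, h2⟩ := h.seg.interior C ⟨hs0', lt_of_lt_of_le hs.1.2 hδ1⟩ hcW
    rw [hforce s hs]
    exact (h2.congr (he.fun_comp C.φ)) v
  exact tendsto_nhds_unique_of_eventuallyEq
    ((hLc.continuousAt (hJ.mem_nhds h0J)).tendsto.mono_left nhdsWithin_le_nhds)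
    ((hRc.continuousAt (hJ.mem_nhds h0J)).tendsto.mono_left nhdsWithin_le_nhds) hev

omit [FiniteDimensional ℝ E] [T2Space M] [CompactSpace M] [PreconnectedSpace M]
  [IsManifold 𝓘(ℝ, E) ∞ M] [ChartedSpace E M] [TopologicalSpace M] in
theorem hat_periodic (σ : M → M) (c : ℝ → M) : Function.Periodic (hat σ c) 2 := fun t => by
  simp only [hat, toIcoMod_add_right]

omit [FiniteDimensional ℝ E] [T2Space M] [CompactSpace M] [PreconnectedSpace M]
  [IsManifold 𝓘(ℝ, E) ∞ M] [ChartedSpace E M] [TopologicalSpace M] in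
theorem hat_eq (σ : M → M) (c : ℝ → M) {t : ℝ} (ht : t ∈ Ico (-1 : ℝ) 1) :
    hat σ c t = fold σ c t := by
  rw [hat, (toIcoMod_eq_self _).2]
  exact ⟨ht.1, by linarith [ht.2]⟩

/-- The reflected chord is a closed geodesic. -/
theorem IsChord.isClosedGeodesic {σ : M → M} {A B : Set M} (hσ : Refl g σ A B) {L : ℝ}
    {c : ℝ → M} (h : IsChord g A B L c) : IsClosedGeodesic g (hat σ c) := by
  have hσc : IsSegment g L fun t => σ (c t) := fun s hs t ht =>
    (gdist_map_eq hσ.iso hσ.iso hσ.inv _ _).trans (h.seg s hs t ht)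
  have hin : ∀ u ∈ Ioo (-1 : ℝ) 1, GeoAt g (hat σ c) u := by
    intro u hu
    have hh : hat σ c =ᶠ[𝓝 u] fold σ c :=
      eventually_of_mem (Ioo_mem_nhds hu.1 hu.2) fun r hr => hat_eq σ c ⟨hr.1.le, hr.2⟩
    rcases lt_trichotomy u 0 with h0 | rfl | h0
    · have hg : GeoAt g (fun r => (fun r => σ (c r)) (0 - r)) u :=
        GeoAt.rev (c := fun r => σ (c r)) (hσc.geoAt ⟨by linarith, by linarith [hu.1]⟩)
      refine (hg.congr ?_).congr hh
      exact eventually_of_mem (Iio_mem_nhds h0) fun r hr => by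
        simp [fold, not_le.2 (show r < 0 from hr)]
    · exact (h.geoAt_zero hσ).congr hh
    · exact ((h.seg.geoAt ⟨h0, hu.2⟩).congr
        (eventually_of_mem (Ioi_mem_nhds h0) fun r hr => if_pos (le_of_lt hr))).congr hh
  have hone : GeoAt g (hat σ c) 1 := by
    have hf := h.swap.geoAt_zero hσ.swap
    rw [← sub_self (1 : ℝ)] at hf
    refine hf.rev.congr ?_
    refine eventually_of_mem (Ioo_mem_nhds zero_lt_one one_lt_two) fun r hr => ?_
    show hat σ c r = fold σ (fun t => c (1 - t)) (1 - r)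
    by_cases hr1 : r < 1
    · rw [hat_eq σ c ⟨by linarith [hr.1], hr1⟩]
      simp [fold, hr.1.le, show 0 ≤ 1 - r by linarith]
    · rw [show r = (r - 2) + 2 by ring, hat_periodic σ c (r - 2),
        hat_eq σ c ⟨by linarith, by linarith [hr.2]⟩]
      rcases (not_lt.1 hr1).eq_or_lt with rfl | hr1'
      · norm_num [fold, (hσ.fix _).2 (Or.inr h.right)]
      · simp only [fold, show ¬ (0 ≤ r - 2) by linarith [hr.2],
          show ¬ (0 ≤ 1 - (r - 2 + 2)) by linarith, if_false]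
        congr 2
        ring
  have hall : ∀ t, GeoAt g (hat σ c) t := by
    intro t
    set u := toIcoMod (two_pos : (0 : ℝ) < 2) (-1) t
    set n := toIcoDiv (two_pos : (0 : ℝ) < 2) (-1) t
    have hu : u ∈ Ico (-1 : ℝ) (-1 + 2) := toIcoMod_mem_Ico _ _ _
    have htu : u + n • (2 : ℝ) = t := toIcoMod_add_toIcoDiv_zsmul _ _ _
    rw [zsmul_eq_mul] at htu
    have hshift : ∀ (m : ℤ) (r : ℝ), GeoAt g (hat σ c) r → GeoAt g (hat σ c) (r - m * 2) := by
      intro m r hr
      rw [← sub_add_cancel r ((m : ℝ) * 2)] at hr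
      exact hr.shift.congr (Eventually.of_forall fun q => ((hat_periodic σ c).int_mul m q).symm)
    have hu' : GeoAt g (hat σ c) u := by
      rcases hu.1.eq_or_lt with h1 | h1
      · have := hshift 1 1 hone
        rw [← h1]
        norm_num at this ⊢
        exact this
      · exact hin u ⟨h1, by linarith [hu.2]⟩
    have := hshift (-n) u hu'
    push_cast at this
    rwa [show u - -(n : ℝ) * 2 = t by linarith] at this
  refine ⟨isGeodesic_of_geoAt hall, ⟨2, two_pos, hat_periodic σ c⟩, 0, 1, ?_⟩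
  rw [hat_eq σ c ⟨by norm_num, one_pos⟩, show (1 : ℝ) = -1 + 2 by norm_num, hat_periodic σ c (-1),
    hat_eq σ c ⟨le_rfl, by norm_num⟩]
  simp only [fold, le_refl, if_true, show ¬ (0 : ℝ) ≤ -1 by norm_num, if_false, neg_neg]
  rw [(hσ.fix _).2 (Or.inr h.right)]
  exact fun he => Set.disjoint_left.1 hσ.disj h.left (he ▸ h.right)

omit [FiniteDimensional ℝ E] [T2Space M] [CompactSpace M] [PreconnectedSpace M]
  [IsManifold 𝓘(ℝ, E) ∞ M] [ChartedSpace E M] [TopologicalSpace M] in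
theorem mem_range_hat {σ : M → M} {c : ℝ → M} {p : M} (hp : p ∈ range (hat σ c)) :
    ∃ s ∈ Icc (0 : ℝ) 1, p = c s ∨ p = σ (c s) := by
  obtain ⟨t, rfl⟩ := hp
  set u := toIcoMod (two_pos : (0 : ℝ) < 2) (-1) t
  have hu : u ∈ Ico (-1 : ℝ) (-1 + 2) := toIcoMod_mem_Ico _ _ _
  show ∃ s ∈ Icc (0 : ℝ) 1, fold σ c u = c s ∨ fold σ c u = σ (c s)
  by_cases h0 : 0 ≤ u
  · exact ⟨u, ⟨h0, by linarith [hu.2]⟩, Or.inl (if_pos h0)⟩
  · exact ⟨-u, ⟨by linarith, by linarith [hu.1]⟩, Or.inr (if_neg h0)⟩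

/-- An involutive isometry with disconnected fixed set, commuting with a flow of isometries all
of whose rest points it fixes, gives infinitely many closed geodesics. -/
theorem infinite_closedGeodesicImages_of_refl
    (φ : ℝ → M → M) (hzero : ∀ x, φ 0 x = x) (hadd : ∀ s t x, φ (s + t) x = φ s (φ t x))
    (hiso : ∀ t, IsLocalIsometry g (φ t)) (hcont : ∀ x, Continuous fun t => φ t x)
    {σ : M → M} (hσiso : IsLocalIsometry g σ) (hinv : ∀ x, σ (σ x) = x)
    (hcomm : ∀ t x, φ t (σ x) = σ (φ t x))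
    (hrest : ∀ x, (∀ t, φ t x = x) → σ x = x)
    {A B : Set M} (hA : IsClosed A) (hB : IsClosed B) (hA' : A.Nonempty) (hB' : B.Nonempty)
    (hAB : Disjoint A B) (hfix : A ∪ B = {x | σ x = x}) :
    (closedGeodesicImages g).Infinite := by
  have hσ : Refl g σ A B :=
    ⟨hσiso, hinv, fun x => (Set.ext_iff.1 hfix x).symm, hB, hA, hAB⟩
  have hσd : ∀ x y, gdist g (σ x) (σ y) = gdist g x y := gdist_map_eq hσiso hσiso hinv
  have hφd : ∀ t x y, gdist g (φ t x) (φ t y) = gdist g x y := fun t =>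
    gdist_map_eq (hiso t) (hiso (-t)) fun x => by rw [← hadd, neg_add_cancel, hzero]
  -- the flow preserves the two parts of the fixed set
  have hpres : ∀ {A B : Set M}, Refl g σ A B → ∀ t, ∀ x ∈ A, φ t x ∈ A := by
    intro A B h t x hx
    have hmem : ∀ r, φ r x ∈ A ∨ φ r x ∈ B := fun r =>
      (h.fix _).1 (by rw [← hcomm, (h.fix x).2 (Or.inl hx)])
    have he : {r | φ r x ∈ A}ᶜ = {r | φ r x ∈ B} := Set.ext fun r =>
      ⟨fun hr => (hmem r).resolve_left hr, fun hr hr' => Set.disjoint_left.1 h.disj hr' hr⟩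
    have hcl : IsClopen {r | φ r x ∈ A} :=
      ⟨h.closedA.preimage (hcont x), isClosed_compl_iff.1
        (he ▸ h.closedB.preimage (hcont x))⟩
    exact Set.eq_univ_iff_forall.1 (hcl.eq_univ ⟨0, by simpa [hzero] using hx⟩) t
  -- a shortest chord
  obtain ⟨⟨a, b⟩, ⟨ha, hb⟩, hmin⟩ := (hA.isCompact.prod hB.isCompact).exists_isMinOn
    (hA'.prod hB') (continuous_gdist g).continuousOn
  obtain ⟨c, hc0, hc1, hseg⟩ := exists_segment (g := g) a b
  set L := gdist g a b
  have hch : IsChord g A B L c :=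
    ⟨hseg, hc0 ▸ ha, hc1 ▸ hb, fun p hp q hq => hmin (show (p, q) ∈ A ×ˢ B from ⟨hp, hq⟩)⟩
  have hL : 0 < L := lt_of_le_of_ne (gdist_nonneg a b) fun he =>
    Set.disjoint_left.1 hAB ha ((gdist_eq_zero.1 he.symm).symm ▸ hb)
  have hfree : ∀ s ∈ Ioo (0 : ℝ) 1, σ (c s) ≠ c s := by
    intro s hs he
    have hsI : s ∈ Icc (0 : ℝ) 1 := ⟨hs.1.le, hs.2.le⟩
    rcases (hσ.fix _).1 he with h | h
    · have := hch.min _ h _ hch.right
      rw [hseg s hsI 1 ⟨zero_le_one, le_rfl⟩, abs_sub_comm, abs_of_pos (by linarith [hs.2])] at this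
      nlinarith [hs.1]
    · have := hch.min _ hch.left _ h
      rw [hseg 0 ⟨le_rfl, zero_le_one⟩ s hsI, zero_sub, abs_neg, abs_of_pos hs.1] at this
      nlinarith [hs.2]
  intro hfin
  set S := range (hat σ c)
  have himg : ∀ t, φ t '' S ∈ closedGeodesicImages g := fun t => by
    refine ⟨hat σ (fun s => φ t (c s)),
      (hch.map (hφd t) (hpres hσ t) (hpres hσ.swap t)).isClosedGeodesic hσ, ?_⟩
    rw [← range_comp]
    congr 1
    funext r
    simp only [hat, fold, Function.comp_apply]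
    split_ifs <;> simp [hcomm]
  let H : AddSubgroup ℝ :=
    { carrier := {t | φ t '' S = S}
      zero_mem' := by simp [hzero]
      add_mem' := fun {s t} hs ht => by
        simp only [mem_setOf_eq] at hs ht ⊢
        calc φ (s + t) '' S = φ s '' (φ t '' S) := by rw [image_image]; simp only [hadd]
          _ = S := by rw [ht, hs]
      neg_mem' := fun {t} ht => by
        simp only [mem_setOf_eq] at ht ⊢
        calc φ (-t) '' S = φ (-t) '' (φ t '' S) := by rw [ht]
          _ = S := by rw [image_image]; simp only [← hadd, neg_add_cancel, hzero, image_id'] }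
  obtain ⟨N, hN⟩ : ∃ N, N = hfin.toFinset.card := ⟨_, rfl⟩
  have hall : ∀ t, φ t '' S = S := by
    intro t
    set u := t / (N.factorial : ℝ)
    obtain ⟨i, hi, j, hj, hne, heq⟩ := Finset.exists_ne_map_eq_of_card_lt_of_maps_to
      (s := Finset.range (N + 1)) (t := hfin.toFinset) (f := fun k : ℕ => φ (k * u) '' S)
      (by simp [← hN]) (fun k _ => hfin.mem_toFinset.2 (himg _))
    wlog hij : i < j generalizing i j
    · exact this j hj i hi hne.symm heq.symm (lt_of_le_of_ne (not_lt.1 hij) hne.symm)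
    have hd : ((j - i : ℕ) : ℝ) * u ∈ H := by
      show φ _ '' S = S
      have h2 : φ (-((i : ℝ) * u)) '' (φ ((j : ℝ) * u) '' S) =
          φ (-((i : ℝ) * u)) '' (φ ((i : ℝ) * u) '' S) := congrArg _ heq.symm
      rw [image_image, image_image] at h2
      simp only [← hadd, neg_add_cancel, hzero, image_id'] at h2
      rw [show ((j - i : ℕ) : ℝ) * u = -((i : ℝ) * u) + j * u by
        rw [Nat.cast_sub hij.le]; ring]
      exact h2
    obtain ⟨m, hm⟩ : j - i ∣ N.factorial := Nat.dvd_factorial (by omega) (by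
      have := Finset.mem_range.1 hj
      omega)
    have hmem := H.nsmul_mem hd m
    rw [nsmul_eq_mul, ← mul_assoc, mul_comm (m : ℝ), ← Nat.cast_mul, ← hm,
      mul_div_cancel₀ t (by positivity)] at hmem
    exact hmem
  have hS : ∀ t, ∀ p ∈ S, φ t p ∈ S := fun t p hp => hall t ▸ mem_image_of_mem _ hp
  have hcS : ∀ s ∈ Ico (0 : ℝ) 1, c s ∈ S := fun s hs =>
    ⟨s, by rw [hat_eq σ c ⟨by linarith [hs.1], hs.2⟩]; exact if_pos hs.1⟩
  have hσc : σ (c 0) = c 0 := (hσ.fix _).2 (Or.inl hch.left)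
  have ha0 : ∀ t, φ t (c 0) = c 0 := by
    intro t
    have hA0 := hpres hσ t _ hch.left
    have hσp : σ (φ t (c 0)) = φ t (c 0) := by rw [← hcomm, hσc]
    obtain ⟨s, hs, hp⟩ := mem_range_hat (hS t _ (hcS 0 ⟨le_rfl, one_pos⟩))
    have hp' : φ t (c 0) = c s := by
      rcases hp with hp | hp
      · exact hp
      · rw [hp, hinv] at hσp
        rw [hp, ← hσp]
    rcases hs.1.eq_or_lt with h0 | h0
    · rw [hp', ← h0]
    rcases hs.2.eq_or_lt with h1 | h1
    · exact absurd (hp' ▸ hA0) (fun h => Set.disjoint_left.1 hAB h (h1 ▸ hch.right))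
    · exact absurd (hp' ▸ hσp) (hfree s ⟨h0, h1⟩)
  set p := c (1 / 2)
  have hhalf : ∀ s ∈ Icc (0 : ℝ) 1, gdist g (c 0) (c s) = L / 2 → s = 1 / 2 := by
    intro s hs he
    rw [hseg 0 ⟨le_rfl, zero_le_one⟩ s hs, zero_sub, abs_neg, abs_of_nonneg hs.1] at he
    exact mul_left_cancel₀ hL.ne' (he.trans (by ring))
  have hpd : gdist g (c 0) p = L / 2 := by
    rw [hseg 0 ⟨le_rfl, zero_le_one⟩ (1 / 2) ⟨by norm_num, by norm_num⟩]
    norm_num
    ring
  have hor : ∀ t, φ t p = p ∨ φ t p = σ p := by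
    intro t
    have hd : gdist g (c 0) (φ t p) = L / 2 := by
      conv_lhs => rw [← ha0 t]
      rw [hφd, hpd]
    obtain ⟨s, hs, hq | hq⟩ := mem_range_hat (hS t _ (hcS (1 / 2) ⟨by norm_num, by norm_num⟩))
    · left
      rw [hq, hhalf s hs (hq ▸ hd)]
    · right
      rw [hq, hhalf s hs]
      have := hq ▸ hd
      rw [← hσc, hσd] at this
      exact this
  have hnep : σ p ≠ p := hfree (1 / 2) ⟨by norm_num, by norm_num⟩
  refine hnep (hrest p fun t => ?_)
  have he : {t | φ t p = p}ᶜ = {t | φ t p = σ p} := Set.ext fun r =>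
    ⟨fun hr => (hor r).resolve_left hr, fun hr hr' => hnep (hr.symm.trans hr')⟩
  have hcl : IsClopen {t | φ t p = p} := ⟨isClosed_eq (hcont p) continuous_const,
    isClosed_compl_iff.1 (he ▸ isClosed_eq (hcont p) continuous_const)⟩
  exact Set.eq_univ_iff_forall.1 (hcl.eq_univ ⟨0, hzero p⟩) t

end

end Vale.Agent.P216.Chord
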