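import Mathlib

/-!
Regularity of Lipschitz minimisers of the energy of a smooth metric on an open set of a vector
space, with fixed right end and left end either fixed or free in a fixed space of an involution.
-/

open Set MeasureTheory Filter intervalIntegral
open scoped Topology ContDiff NNReal

namespace Vale.Agent.P216.Chord

set_option maxSynthPendingDepth 3

noncomputable section

variable {E : Type*} [NormedAddCommGroup E] [NormedSpace ℝ E]

/-- The velocity belonging to a momentum. -/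
def vel (G : E → E →L[ℝ] E →L[ℝ] ℝ) (y : E) (P : E →L[ℝ] ℝ) : E :=
  ContinuousLinearMap.inverse (G y) P

/-- The force. -/
def force (G : E → E →L[ℝ] E →L[ℝ] ℝ) (y : E) (u : E) : E →L[ℝ] ℝ :=
  (1 / 2 : ℝ) • ((fderiv ℝ G y).flip u).flip u

/-- The Hamiltonian vector field. -/
def field (G : E → E →L[ℝ] E →L[ℝ] ℝ) (z : E × (E →L[ℝ] ℝ)) : E × (E →L[ℝ] ℝ) :=
  (vel G z.1 z.2, force G z.1 (vel G z.1 z.2))

theorem force_apply (G : E → E →L[ℝ] E →L[ℝ] ℝ) (y u v : E) :
    force G y u v = (1 / 2 : ℝ) * fderiv ℝ G y v u u := rfl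

/-- A metric on an open set. -/
structure IsMetricOn (U : Set E) (G : E → E →L[ℝ] E →L[ℝ] ℝ) : Prop where
  isOpen : IsOpen U
  smooth : ContDiffOn ℝ ∞ G U
  symm : ∀ y ∈ U, ∀ u w, G y u w = G y w u
  pos : ∀ y ∈ U, ∀ v, v ≠ 0 → 0 < G y v v

variable [FiniteDimensional ℝ E] {U : Set E} {G : E → E →L[ℝ] E →L[ℝ] ℝ}

omit [FiniteDimensional ℝ E] in
theorem IsMetricOn.injective (hG : IsMetricOn U G) {y : E} (hy : y ∈ U) :
    Function.Injective (G y) := by
  rw [injective_iff_map_eq_zero]
  intro v hv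
  by_contra h
  have := hG.pos y hy v h
  rw [hv] at this
  simp at this

theorem IsMetricOn.exists_equiv (hG : IsMetricOn U G) {y : E} (hy : y ∈ U) :
    ∃ e : E ≃L[ℝ] (E →L[ℝ] ℝ), (e : E →L[ℝ] E →L[ℝ] ℝ) = G y := by
  have hfr : Module.finrank ℝ E = Module.finrank ℝ (E →L[ℝ] ℝ) := by
    rw [← (LinearMap.toContinuousLinearMap : (E →ₗ[ℝ] ℝ) ≃ₗ[ℝ] _).finrank_eq]
    exact (Subspace.dual_finrank_eq (K := ℝ) (V := E)).symm
  exact ⟨(LinearEquiv.ofInjectiveOfFinrankEq (G y : E →ₗ[ℝ] E →L[ℝ] ℝ) (hG.injective hy) hfr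
    ).toContinuousLinearEquiv, rfl⟩

theorem IsMetricOn.apply_vel (hG : IsMetricOn U G) {y : E} (hy : y ∈ U) (P : E →L[ℝ] ℝ) :
    G y (vel G y P) = P := by
  obtain ⟨e, he⟩ := hG.exists_equiv hy
  rw [vel, ← he, ContinuousLinearMap.inverse_equiv]
  exact e.apply_symm_apply P

theorem IsMetricOn.vel_eq (hG : IsMetricOn U G) {y : E} (hy : y ∈ U) {u : E} :
    vel G y (G y u) = u := hG.injective hy (hG.apply_vel hy _)

theorem IsMetricOn.contDiffOn_vel (hG : IsMetricOn U G) :
    ContDiffOn ℝ ∞ (fun z : E × (E →L[ℝ] ℝ) => vel G z.1 z.2) (U ×ˢ univ) := by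
  intro z hz
  obtain ⟨e, he⟩ := hG.exists_equiv hz.1
  have h1 : ContDiffAt ℝ ∞ (fun y => ContinuousLinearMap.inverse (G y)) z.1 := by
    have hi : ContDiffAt ℝ ∞ ContinuousLinearMap.inverse (G z.1) := by
      rw [← he]; exact contDiffAt_map_inverse e
    exact hi.comp z.1 (hG.smooth.contDiffAt (hG.isOpen.mem_nhds hz.1))
  exact ((h1.comp z contDiffAt_fst).clm_apply contDiffAt_snd).contDiffWithinAt

theorem IsMetricOn.contDiffOn_field (hG : IsMetricOn U G) :
    ContDiffOn ℝ ∞ (field G) (U ×ˢ univ) := by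
  refine hG.contDiffOn_vel.prodMk (contDiffOn_clm_apply.2 fun v => ?_)
  intro z hz
  have ho : IsOpen (U ×ˢ (univ : Set (E →L[ℝ] ℝ))) := hG.isOpen.prod isOpen_univ
  have hv : ContDiffAt ℝ ∞ (fun z : E × (E →L[ℝ] ℝ) => vel G z.1 z.2) z :=
    hG.contDiffOn_vel.contDiffAt (ho.mem_nhds hz)
  have hd : ContDiffAt ℝ ∞ (fun z : E × (E →L[ℝ] ℝ) => fderiv ℝ G z.1) z :=
    ((hG.smooth.fderiv_of_isOpen hG.isOpen (m := ∞) le_rfl).contDiffAt
      (hG.isOpen.mem_nhds hz.1)).comp z contDiffAt_fst
  simp only [force_apply]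
  exact (contDiffAt_const.mul
    (((hd.clm_apply contDiffAt_const).clm_apply hv).clm_apply hv)).contDiffWithinAt

/-- An integral curve of a smooth field is smooth. -/
theorem contDiffOn_of_hasDerivAt {X : Type*} [NormedAddCommGroup X] [NormedSpace ℝ X] {F : X → X}
    {V : Set X} (hF : ContDiffOn ℝ ∞ F V) {z : ℝ → X} {J : Set ℝ} (hJ : IsOpen J)
    (hz : ∀ t ∈ J, z t ∈ V) (hd : ∀ t ∈ J, HasDerivAt z (F (z t)) t) :
    ContDiffOn ℝ ∞ z J := by
  have hdiff : DifferentiableOn ℝ z J := fun t ht => (hd t ht).differentiableAt.differentiableWithinAt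
  have key : ∀ n : ℕ, ContDiffOn ℝ n z J := by
    intro n
    induction n with
    | zero => exact contDiffOn_zero.2 hdiff.continuousOn
    | succ n ih =>
      rw [Nat.cast_succ, contDiffOn_succ_iff_deriv_of_isOpen hJ]
      refine ⟨hdiff, by simp, ?_⟩
      exact ((hF.of_le (by exact_mod_cast le_top)).comp ih hz).congr fun t ht => (hd t ht).deriv
  exact contDiffOn_infty.2 key

theorem ae_hasDerivAt_of_lipschitz {K : ℝ≥0} {x : ℝ → E} {α β : ℝ}
    (hx : LipschitzOnWith K x (Icc α β)) :
    ∀ᵐ t ∂volume.restrict (Ioo α β), HasDerivAt x (deriv x t) t ∧ ‖deriv x t‖ ≤ K := by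
  have h := hx.ae_differentiableWithinAt_real measurableSet_Icc
  have h2 : ∀ᵐ t ∂volume.restrict (Ioo α β), DifferentiableWithinAt ℝ x (Icc α β) t :=
    ae_restrict_of_ae_restrict_of_subset Ioo_subset_Icc_self h
  filter_upwards [h2, ae_restrict_mem measurableSet_Ioo] with t ht hmem
  have hn : Icc α β ∈ 𝓝 t := Icc_mem_nhds hmem.1 hmem.2
  exact ⟨(ht.differentiableAt hn).hasDerivAt, norm_deriv_le_of_lipschitzOn hn hx⟩

/-- Lipschitz curves are integrals of their derivatives. -/
theorem integral_deriv_of_lipschitz {K : ℝ≥0} {x : ℝ → E} {α β : ℝ} (hαβ : α ≤ β)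
    (hx : LipschitzOnWith K x (Icc α β)) {s t : ℝ} (hs : α ≤ s) (hst : s ≤ t) (ht : t ≤ β) :
    IntervalIntegrable (deriv x) volume s t ∧ ∫ u in s..t, deriv x u = x t - x s := by
  have : CompleteSpace E := FiniteDimensional.complete ℝ E
  have hx' : LipschitzOnWith K x (Icc s t) := hx.mono (Icc_subset_Icc hs ht)
  have hbd := ae_hasDerivAt_of_lipschitz hx'
  have hint : IntervalIntegrable (deriv x) volume s t := by
    rw [intervalIntegrable_iff_integrableOn_Ioo_of_le hst]
    refine IntegrableOn.of_bound measure_Ioo_lt_top (aestronglyMeasurable_deriv _ _) K ?_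
    filter_upwards [hbd] with u hu using hu.2
  refine ⟨hint, ?_⟩
  refine (SeparatingDual.eq_iff_forall_dual_eq (R := ℝ)).2 fun φ => ?_
  rw [map_sub, ← φ.intervalIntegral_comp_comm hint]
  have hac : AbsolutelyContinuousOnInterval (fun u => φ (x u)) s t := by
    have : LipschitzOnWith (‖φ‖₊ * K) (fun u => φ (x u)) (uIcc s t) := by
      rw [uIcc_of_le hst]; exact φ.lipschitz.comp_lipschitzOnWith hx'
    exact this.absolutelyContinuousOnInterval
  rw [← hac.integral_deriv_eq_sub, integral_of_le hst, integral_of_le hst,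
    integral_Ioc_eq_integral_Ioo, integral_Ioc_eq_integral_Ioo]
  refine integral_congr_ae ?_
  filter_upwards [hbd] with u hu
  exact ((φ.hasFDerivAt.comp_hasDerivAt u hu.1).deriv).symm

theorem aesm_apply {F' : Type*} [NormedAddCommGroup F'] [NormedSpace ℝ F'] {μ : Measure ℝ}
    {B : ℝ → E →L[ℝ] F'} {v : ℝ → E} (hB : AEStronglyMeasurable B μ)
    (hv : AEStronglyMeasurable v μ) : AEStronglyMeasurable (fun t => B t (v t)) μ :=
  isBoundedBilinearMap_apply.continuous.comp_aestronglyMeasurable (hB.prodMk hv)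

theorem aesm_flip {F' : Type*} [NormedAddCommGroup F'] [NormedSpace ℝ F'] {μ : Measure ℝ}
    {B : ℝ → E →L[ℝ] E →L[ℝ] F'} (hB : AEStronglyMeasurable B μ) :
    AEStronglyMeasurable (fun t => (B t).flip) μ :=
  (ContinuousLinearMap.flipₗᵢ ℝ E E F').continuous.comp_aestronglyMeasurable hB

/-- The hypotheses on a minimiser: `T` is the set of allowed displacements of the left end. -/
structure IsMin (G : E → E →L[ℝ] E →L[ℝ] ℝ) (U : Set E) (T : Set E) (α β L : ℝ) (x : ℝ → E) :
    Prop where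
  lt : α < β
  lip : ∃ K, LipschitzOnWith K x (Icc α β)
  maps : ∀ t ∈ Icc α β, x t ∈ U
  speed : ∀ᵐ t ∂volume.restrict (Ioo α β), G (x t) (deriv x t) (deriv x t) ≤ L ^ 2
  le_energy : ∀ (K : ℝ≥0) (y : ℝ → E), LipschitzOnWith K y (Icc α β) → (∀ t ∈ Icc α β, y t ∈ U) →
    y β = x β → y α - x α ∈ T →
    L ^ 2 * (β - α) ≤ ∫ t in α..β, G (y t) (deriv y t) (deriv y t)

theorem norm_apply₂_le (B : E →L[ℝ] E →L[ℝ] ℝ) (u w : E) {C a b : ℝ} (hB : ‖B‖ ≤ C) (hu : ‖u‖ ≤ a)
    (hw : ‖w‖ ≤ b) : ‖B u w‖ ≤ C * a * b := by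
  refine (B.le_opNorm₂ u w).trans ?_
  have := (norm_nonneg B).trans hB
  have := (norm_nonneg u).trans hu
  gcongr

/-- The Euler-Lagrange equation, in weak form. -/
theorem IsMin.weak (hG : IsMetricOn U G) {T : Set E} {α β L : ℝ} {x : ℝ → E}
    (hm : IsMin G U T α β L x) (hT0 : (0 : E) ∈ T) {ζ : ℝ → E} {K' : ℝ≥0}
    (hζ : LipschitzOnWith K' ζ (Icc α β)) (hζβ : ζ β = 0) (hζα : ∀ ε : ℝ, ε • ζ α ∈ T) :
    ∫ t in α..β, (force G (x t) (deriv x t) (ζ t) + G (x t) (deriv x t) (deriv ζ t)) = 0 := by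
  obtain ⟨K, hK⟩ := hm.lip
  have hab := hm.lt
  have hxc := hK.continuousOn
  have hζc := hζ.continuousOn
  obtain ⟨Z, hZ⟩ := isCompact_Icc.exists_bound_of_continuousOn hζc
  have hZ0 : 0 ≤ Z := (norm_nonneg _).trans (hZ α ⟨le_rfl, hab.le⟩)
  obtain ⟨δ, hδ, hδU⟩ := (isCompact_Icc.image_of_continuousOn hxc).exists_cthickening_subset_open
    hG.isOpen (image_subset_iff.2 hm.maps)
  set η := δ / (Z + 1) with hη
  have hη0 : 0 < η := by positivity
  have hmove : ∀ ε, |ε| ≤ η → ∀ t ∈ Icc α β,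
      x t + ε • ζ t ∈ Metric.cthickening δ (x '' Icc α β) := by
    intro ε hε t ht
    refine Metric.mem_cthickening_of_dist_le _ (x t) δ _ (mem_image_of_mem x ht) ?_
    rw [dist_eq_norm, add_sub_cancel_left, norm_smul]
    calc |ε| * ‖ζ t‖ ≤ η * (Z + 1) := by gcongr; linarith [hZ t ht]
      _ = δ := by rw [hη]; field_simp
  have hKc : IsCompact (Metric.cthickening δ (x '' Icc α β)) :=
    (isCompact_Icc.image_of_continuousOn hxc).cthickening
  obtain ⟨C₀, hC₀⟩ := hKc.exists_bound_of_continuousOn (hG.smooth.continuousOn.mono hδU)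
  obtain ⟨C₁, hC₁⟩ := hKc.exists_bound_of_continuousOn
    ((hG.smooth.continuousOn_fderiv_of_isOpen hG.isOpen (by simp)).mono hδU)
  set f : ℝ → ℝ → ℝ := fun ε t =>
    G (x t + ε • ζ t) (deriv x t + ε • deriv ζ t) (deriv x t + ε • deriv ζ t) with hf
  set f' : ℝ → ℝ → ℝ := fun ε t =>
    fderiv ℝ G (x t + ε • ζ t) (ζ t) (deriv x t + ε • deriv ζ t) (deriv x t + ε • deriv ζ t) +
      G (x t + ε • ζ t) (deriv ζ t) (deriv x t + ε • deriv ζ t) +
      G (x t + ε • ζ t) (deriv x t + ε • deriv ζ t) (deriv ζ t) with hf'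
  set μ := volume.restrict (Ioo α β) with hμ
  have hmeasx : AEStronglyMeasurable (deriv x) μ := aestronglyMeasurable_deriv _ _
  have hmeasζ : AEStronglyMeasurable (deriv ζ) μ := aestronglyMeasurable_deriv _ _
  have hGm : ∀ ε, |ε| ≤ η → AEStronglyMeasurable (fun t => G (x t + ε • ζ t)) μ := fun ε hε =>
    ((hG.smooth.continuousOn.comp (hxc.add (hζc.const_smul ε))
      fun t ht => hδU (hmove ε hε t ht)).mono Ioo_subset_Icc_self).aestronglyMeasurable
        measurableSet_Ioo
  have hDm : AEStronglyMeasurable (fun t => fderiv ℝ G (x t + (0 : ℝ) • ζ t)) μ :=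
    (((hG.smooth.continuousOn_fderiv_of_isOpen hG.isOpen (by simp)).comp
      (hxc.add (hζc.const_smul 0)) fun t ht => hδU (hmove 0 (by simpa using hη0.le) t ht)).mono
        Ioo_subset_Icc_self).aestronglyMeasurable measurableSet_Ioo
  have hvm : ∀ ε : ℝ, AEStronglyMeasurable (fun t => deriv x t + ε • deriv ζ t) μ :=
    fun ε => hmeasx.add (hmeasζ.const_smul ε)
  have hfm : ∀ ε, |ε| ≤ η → AEStronglyMeasurable (f ε) μ := fun ε hε =>
    aesm_apply (aesm_apply (hGm ε hε) (hvm ε)) (hvm ε)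
  have hζm : AEStronglyMeasurable ζ μ :=
    (hζc.mono Ioo_subset_Icc_self).aestronglyMeasurable measurableSet_Ioo
  have hf'm : AEStronglyMeasurable (f' 0) μ :=
    ((aesm_apply (aesm_apply (aesm_apply hDm hζm) (hvm 0)) (hvm 0)).add
      (aesm_apply (aesm_apply (hGm 0 (by simpa using hη0.le)) hmeasζ) (hvm 0))).add
      (aesm_apply (aesm_apply (hGm 0 (by simpa using hη0.le)) (hvm 0)) hmeasζ)
  have hx' := ae_hasDerivAt_of_lipschitz hK
  have hζ' := ae_hasDerivAt_of_lipschitz hζ
  set b : ℝ := (K : ℝ) + η * K' with hb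
  have hbound : ∀ᵐ t ∂μ, ∀ ε, |ε| ≤ η →
      ‖f ε t‖ ≤ C₀ * b * b ∧ ‖f' ε t‖ ≤ C₁ * Z * b * b + C₀ * K' * b + C₀ * b * K' := by
    filter_upwards [hx', hζ', ae_restrict_mem measurableSet_Ioo] with t h1 h2 ht ε hε
    have hu : ‖deriv x t + ε • deriv ζ t‖ ≤ b := by
      refine (norm_add_le _ _).trans (add_le_add h1.2 ?_)
      rw [norm_smul]
      exact mul_le_mul hε h2.2 (norm_nonneg _) hη0.le
    have hm' := hmove ε hε t (Ioo_subset_Icc_self ht)
    have hG' := hC₀ _ hm'
    refine ⟨norm_apply₂_le _ _ _ hG' hu hu, (norm_add₃_le).trans ?_⟩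
    gcongr
    · refine norm_apply₂_le _ _ _ ?_ hu hu
      refine ((fderiv ℝ G _).le_opNorm _).trans ?_
      exact mul_le_mul (hC₁ _ hm') (hZ t (Ioo_subset_Icc_self ht)) (norm_nonneg _)
        ((norm_nonneg _).trans (hC₁ _ hm'))
    · exact norm_apply₂_le _ _ _ hG' h2.2 hu
    · exact norm_apply₂_le _ _ _ hG' hu h2.2
  have hball : ∀ ε ∈ Metric.ball (0 : ℝ) η, |ε| ≤ η := fun ε hε => by
    rw [Metric.mem_ball, dist_zero_right, Real.norm_eq_abs] at hε; exact hε.le
  have hfin : Fact (volume (Ioo α β) < ⊤) := ⟨measure_Ioo_lt_top⟩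
  have hd := hasDerivAt_integral_of_dominated_loc_of_deriv_le (μ := μ) (F := f) (F' := f')
    (x₀ := (0 : ℝ)) (bound := fun _ => C₁ * Z * b * b + C₀ * K' * b + C₀ * b * K')
    (Metric.ball_mem_nhds 0 hη0)
    (eventually_of_mem (Metric.ball_mem_nhds 0 hη0) fun ε hε => hfm ε (hball ε hε))
    (Integrable.of_bound (hfm 0 (by simpa using hη0.le)) _
      (hbound.mono fun t ht => (ht 0 (by simpa using hη0.le)).1))
    hf'm (hbound.mono fun t ht ε hε => (ht ε (hball ε hε)).2) (integrable_const _)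
    (by
      filter_upwards [ae_restrict_mem measurableSet_Ioo] with t ht ε hε
      have hin := hδU (hmove ε (hball ε hε) t (Ioo_subset_Icc_self ht))
      have h1 : HasDerivAt (fun e : ℝ => x t + e • ζ t) (ζ t) ε := by
        simpa using ((hasDerivAt_id ε).smul_const (ζ t)).const_add (x t)
      have h2 : HasDerivAt (fun e : ℝ => deriv x t + e • deriv ζ t) (deriv ζ t) ε := by
        simpa using ((hasDerivAt_id ε).smul_const (deriv ζ t)).const_add (deriv x t)
      have hGd := ((hG.smooth.differentiableOn (by simp)).differentiableAt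
        (hG.isOpen.mem_nhds hin)).hasFDerivAt.comp_hasDerivAt ε h1
      have := (hGd.clm_apply h2).clm_apply h2
      simpa [hf, hf', add_assoc] using this)
  have hE : ∀ ε, |ε| ≤ η → L ^ 2 * (β - α) ≤ ∫ t, f ε t ∂μ := by
    intro ε hε
    have hy : LipschitzOnWith (K + ‖ε‖₊ * K') (fun t => x t + ε • ζ t) (Icc α β) :=
      hK.add ((lipschitzWith_smul ε).comp_lipschitzOnWith hζ)
    refine (hm.le_energy _ _ hy (fun t ht => hδU (hmove ε hε t ht)) (by simp [hζβ])
      (by simpa using hζα ε)).trans_eq ?_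
    rw [integral_of_le hab.le, integral_Ioc_eq_integral_Ioo]
    refine integral_congr_ae ?_
    filter_upwards [hx', hζ'] with t h1 h2
    have := (h1.1.add (h2.1.const_smul ε)).deriv
    simp only [hf]
    rw [show (fun t => x t + ε • ζ t) = x + ε • ζ from rfl, this]
  have h0 : ∫ t, f 0 t ∂μ ≤ L ^ 2 * (β - α) := by
    refine (integral_mono_ae (Integrable.of_bound (hfm 0 (by simpa using hη0.le)) _
      (hbound.mono fun t ht => (ht 0 (by simpa using hη0.le)).1)) (integrable_const (L ^ 2))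
      (by filter_upwards [hm.speed] with t ht; simpa [hf] using ht)).trans_eq ?_
    simp [hμ, hab.le, mul_comm]
  have hmin : IsLocalMin (fun ε => ∫ t, f ε t ∂μ) 0 :=
    eventually_of_mem (Metric.ball_mem_nhds 0 hη0) fun ε hε => h0.trans (hE ε (hball ε hε))
  have hzero := hmin.hasDerivAt_eq_zero hd.2
  rw [integral_of_le hab.le, integral_Ioc_eq_integral_Ioo]
  have e : ∀ᵐ t ∂μ, f' 0 t =
      2 * (force G (x t) (deriv x t) (ζ t) + G (x t) (deriv x t) (deriv ζ t)) := by
    filter_upwards [ae_restrict_mem measurableSet_Ioo] with t ht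
    simp only [hf', zero_smul, add_zero, force_apply,
      hG.symm _ (hm.maps t (Ioo_subset_Icc_self ht)) (deriv ζ t) (deriv x t)]
    ring
  rw [MeasureTheory.integral_congr_ae e, MeasureTheory.integral_const_mul] at hzero
  linarith

/-- A minimiser solves the Hamiltonian system; its momentum at a free left end kills the allowed
displacements. -/
theorem IsMin.exists_momentum (hG : IsMetricOn U G) {T : Submodule ℝ E} {α β L : ℝ} {x : ℝ → E}
    (hm : IsMin G U T α β L x) :
    ∃ P : ℝ → E →L[ℝ] ℝ, (∀ t ∈ Icc α β,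
      HasDerivWithinAt (fun s => (x s, P s)) (field G (x t, P t)) (Icc α β) t) ∧
      ∀ v ∈ T, P α v = 0 := by
  have : CompleteSpace E := FiniteDimensional.complete ℝ E
  obtain ⟨K, hK⟩ := hm.lip
  have hab := hm.lt
  have hxc := hK.continuousOn
  set p : ℝ → E →L[ℝ] ℝ := fun t => G (x t) (deriv x t) with hp
  set q : ℝ → E →L[ℝ] ℝ := fun t => force G (x t) (deriv x t) with hq
  set μ := volume.restrict (Ioo α β) with hμ
  have hx' := ae_hasDerivAt_of_lipschitz hK
  have hxi : ∀ t ∈ Icc α β, x t ∈ U := hm.maps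
  have hxm : AEStronglyMeasurable (deriv x) μ := aestronglyMeasurable_deriv _ _
  have hGc : ContinuousOn (fun t => G (x t)) (Icc α β) := hG.smooth.continuousOn.comp hxc hxi
  have hDc : ContinuousOn (fun t => fderiv ℝ G (x t)) (Icc α β) :=
    (hG.smooth.continuousOn_fderiv_of_isOpen hG.isOpen (by simp)).comp hxc hxi
  obtain ⟨C₀, hC₀⟩ := isCompact_Icc.exists_bound_of_continuousOn hGc
  obtain ⟨C₁, hC₁⟩ := isCompact_Icc.exists_bound_of_continuousOn hDc
  have hDm : AEStronglyMeasurable (fun t => fderiv ℝ G (x t)) μ :=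
    (hDc.mono Ioo_subset_Icc_self).aestronglyMeasurable measurableSet_Ioo
  have hpm : AEStronglyMeasurable p μ :=
    aesm_apply ((hGc.mono Ioo_subset_Icc_self).aestronglyMeasurable measurableSet_Ioo) hxm
  have hqm : AEStronglyMeasurable q μ := by
    exact (aesm_apply (aesm_flip (aesm_apply (aesm_flip hDm) hxm)) hxm).const_smul (1 / 2 : ℝ)
  have hbd : ∀ᵐ t ∂μ, ‖p t‖ ≤ C₀ * K ∧ ‖q t‖ ≤ C₁ * K * K := by
    filter_upwards [hx', ae_restrict_mem measurableSet_Ioo] with t h1 ht
    have hC₁' : 0 ≤ C₁ := (norm_nonneg _).trans (hC₁ t (Ioo_subset_Icc_self ht))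
    have hC₀' : 0 ≤ C₀ := (norm_nonneg _).trans (hC₀ t (Ioo_subset_Icc_self ht))
    refine ⟨((G (x t)).le_opNorm _).trans
      (mul_le_mul (hC₀ t (Ioo_subset_Icc_self ht)) h1.2 (norm_nonneg _) hC₀'), ?_⟩
    refine ContinuousLinearMap.opNorm_le_bound _ (by positivity) fun v => ?_
    simp only [hq, force_apply, norm_mul]
    have h4 : ‖fderiv ℝ G (x t) v (deriv x t) (deriv x t)‖ ≤ C₁ * ‖v‖ * K * K := by
      refine norm_apply₂_le _ _ _ (((fderiv ℝ G (x t)).le_opNorm v).trans ?_) h1.2 h1.2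
      gcongr
      exact hC₁ t (Ioo_subset_Icc_self ht)
    rw [show ‖(1 / 2 : ℝ)‖ = 1 / 2 by norm_num]
    have := norm_nonneg (fderiv ℝ G (x t) v (deriv x t) (deriv x t))
    linarith
  have hqi : IntervalIntegrable q volume α β :=
    (intervalIntegrable_iff_integrableOn_Ioo_of_le hab.le).2
      (IntegrableOn.of_bound measure_Ioo_lt_top hqm _ (hbd.mono fun t h => h.2))
  have hpi : IntervalIntegrable p volume α β :=
    (intervalIntegrable_iff_integrableOn_Ioo_of_le hab.le).2
      (IntegrableOn.of_bound measure_Ioo_lt_top hpm _ (hbd.mono fun t h => h.1))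
  set Q : ℝ → E →L[ℝ] ℝ := fun t => ∫ s in α..t, q s with hQ
  have hQc : ContinuousOn Q (Icc α β) := by
    rw [← uIcc_of_le hab.le]
    exact intervalIntegral.continuousOn_primitive_interval' hqi left_mem_uIcc
  have hQi : IntervalIntegrable Q volume α β :=
    (hQc.mono (uIcc_of_le hab.le).le).intervalIntegrable
  set w : ℝ → E →L[ℝ] ℝ := fun t => p t - Q t with hw
  have hwi : IntervalIntegrable w volume α β := hpi.sub hQi
  set m : E →L[ℝ] ℝ := (β - α)⁻¹ • ∫ t in α..β, w t with hm'
  have hev : ∀ {g : ℝ → E →L[ℝ] ℝ}, IntervalIntegrable g volume α β → ∀ v,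
      IntervalIntegrable (fun t => g t v) volume α β := fun hg v =>
    ⟨(ContinuousLinearMap.apply ℝ ℝ v).integrable_comp hg.1,
      (ContinuousLinearMap.apply ℝ ℝ v).integrable_comp hg.2⟩
  -- integration by parts against Lipschitz scalar functions
  have hparts : ∀ (v : E) (z : ℝ → ℝ) (K' : ℝ≥0), LipschitzOnWith K' z (Icc α β) → z β = 0 →
      (∀ ε : ℝ, ε • z α • v ∈ T) → ∫ t in α..β, (p t v - Q t v) * deriv z t = 0 := by
    intro v z K' hz hzβ hzα
    have hzd := ae_hasDerivAt_of_lipschitz hz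
    have hweak := hm.weak hG T.zero_mem (ζ := fun t => z t • v)
      (K' := ‖v‖₊ * K') (LipschitzOnWith.of_dist_le_mul fun s hs t ht => by
        rw [dist_eq_norm, ← sub_smul, norm_smul, NNReal.coe_mul, coe_nnnorm, mul_comm ‖v‖,
          mul_right_comm]
        gcongr
        exact (dist_eq_norm (z s) (z t)).symm.trans_le (hz.dist_le_mul s hs t ht))
      (by simp [hzβ]) hzα
    have hac : AbsolutelyContinuousOnInterval z α β := by
      have h' : LipschitzOnWith K' z (uIcc α β) := by rwa [uIcc_of_le hab.le]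
      exact h'.absolutelyContinuousOnInterval
    have hQv : ∀ t ∈ uIcc α β, Q t v = ∫ s in α..t, q s v := fun t ht =>
      ContinuousLinearMap.intervalIntegral_apply
        (hqi.mono_set (uIcc_subset_uIcc left_mem_uIcc ht)) v
    have hacQ : AbsolutelyContinuousOnInterval (fun t => ∫ s in α..t, q s v) α β :=
      (hev hqi v).absolutelyContinuousOnInterval_intervalIntegral left_mem_uIcc
    have hbp := hacQ.integral_mul_deriv_eq_deriv_mul hac
    rw [hzβ, intervalIntegral.integral_same, mul_zero, zero_mul, sub_zero, zero_sub] at hbp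
    have hQd : ∫ t in α..β, deriv (fun t => ∫ s in α..t, q s v) t * z t =
        ∫ t in α..β, q t v * z t := by
      refine intervalIntegral.integral_congr_ae ?_
      filter_upwards [(hev hqi v).ae_hasDerivAt_integral] with t ht hmem
      rw [(ht (uIoc_subset_uIcc hmem) α left_mem_uIcc).deriv]
    rw [hQd] at hbp
    have hdzm : AEStronglyMeasurable (deriv z) μ := aestronglyMeasurable_deriv _ _
    have hdz : ∀ {g : ℝ → ℝ}, IntervalIntegrable g volume α β →
        IntervalIntegrable (fun t => g t * deriv z t) volume α β := by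
      intro g hg
      rw [intervalIntegrable_iff_integrableOn_Ioo_of_le hab.le] at hg ⊢
      exact hg.mul_bdd hdzm (hzd.mono fun t h => h.2)
    have h1 : IntervalIntegrable (fun t => q t v * z t) volume α β :=
      (hev hqi v).mul_continuousOn (by rw [uIcc_of_le hab.le]; exact hz.continuousOn)
    have h2 := hdz (hev hpi v)
    have h3 := hdz (hev hQi v)
    have hw' : ∫ t in α..β, (q t v * z t + p t v * deriv z t) = 0 := by
      rw [← hweak, integral_of_le hab.le, integral_of_le hab.le, integral_Ioc_eq_integral_Ioo,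
        integral_Ioc_eq_integral_Ioo]
      refine integral_congr_ae ?_
      filter_upwards [hzd] with t ht
      have hd : deriv (fun s => z s • v) t = deriv z t • v := (ht.1.smul_const v).deriv
      simp only [hd, map_smul, hp, hq, smul_eq_mul]
      ring
    rw [intervalIntegral.integral_add h1 h2] at hw'
    have hQ' : ∫ t in α..β, (∫ s in α..t, q s v) * deriv z t =
        ∫ t in α..β, Q t v * deriv z t :=
      intervalIntegral.integral_congr fun t ht => by simp only [hQv t ht]
    rw [hQ'] at hbp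
    simp only [sub_mul]
    rw [intervalIntegral.integral_sub h2 h3, hbp]
    linarith
  have hwv : ∀ v, ∀ᵐ t ∂μ, w t v = m v := by
    intro v
    set h : ℝ → ℝ := fun t => w t v - m v with hh
    have hwvi := hev hwi v
    have hhi : IntervalIntegrable h volume α β := hwvi.sub intervalIntegrable_const
    obtain ⟨Q₁, hQ₁⟩ := isCompact_Icc.exists_bound_of_continuousOn hQc
    set B : ℝ := (C₀ * K + Q₁) * ‖v‖ + ‖m v‖ with hB
    have hhb : ∀ᵐ t ∂μ, ‖h t‖ ≤ B := by
      filter_upwards [hbd, ae_restrict_mem measurableSet_Ioo] with t ht hmem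
      refine (norm_sub_le _ _).trans (add_le_add ?_ le_rfl)
      refine ((w t).le_opNorm v).trans (mul_le_mul_of_nonneg_right ?_ (norm_nonneg _))
      exact (norm_sub_le _ _).trans (add_le_add ht.1 (hQ₁ t (Ioo_subset_Icc_self hmem)))
    set z : ℝ → ℝ := fun t => ∫ s in α..t, h s with hz
    have hzlip : LipschitzOnWith B.toNNReal z (Icc α β) := by
      refine LipschitzOnWith.of_dist_le_mul fun s hs t ht => ?_
      have hsub : ∀ u ∈ Icc α β, IntervalIntegrable h volume α u := fun u hu =>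
        hhi.mono_set (uIcc_subset_uIcc left_mem_uIcc (by rwa [uIcc_of_le hab.le]))
      rw [hz, dist_eq_norm, integral_interval_sub_left (hsub s hs) (hsub t ht), dist_eq_norm,
        Real.norm_eq_abs (s - t)]
      refine norm_integral_le_of_norm_le_const_ae ?_
      rw [hμ, restrict_Ioo_eq_restrict_Ioc] at hhb
      filter_upwards [(ae_restrict_iff' measurableSet_Ioc).1 hhb] with u hu hmem
      refine (hu ⟨(le_min ht.1 hs.1).trans_lt hmem.1, hmem.2.trans (max_le ht.2 hs.2)⟩).trans ?_
      exact Real.le_coe_toNNReal B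
    have hzβ : z β = 0 := by
      rw [hz]
      simp only [hh]
      rw [intervalIntegral.integral_sub hwvi intervalIntegrable_const,
        intervalIntegral.integral_const, hm']
      simp only [smul_apply, smul_eq_mul]
      rw [← ContinuousLinearMap.intervalIntegral_apply hwi]
      have : β - α ≠ 0 := sub_ne_zero.2 hab.ne'
      field_simp
      ring
    have hzα : ∀ ε : ℝ, ε • z α • v ∈ T := fun ε => by simp [hz]
    have hkey := hparts v z _ hzlip hzβ hzα
    have hzd : ∀ᵐ t ∂μ, deriv z t = h t := by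
      have := hhi.ae_hasDerivAt_integral
      filter_upwards [ae_restrict_of_ae this, ae_restrict_mem measurableSet_Ioo] with t ht hmem
      exact (ht (by rw [uIcc_of_le hab.le]; exact Ioo_subset_Icc_self hmem) α left_mem_uIcc).deriv
    rw [integral_of_le hab.le, integral_Ioc_eq_integral_Ioo] at hkey
    have hsq : ∫ t, (h t) ^ 2 ∂μ = 0 := by
      have hmean : ∫ t, h t ∂μ = 0 := by
        rw [hμ, ← integral_Ioc_eq_integral_Ioo, ← integral_of_le hab.le]; exact hzβ
      have h1 : ∫ t, w t v * h t ∂μ = 0 := by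
        rw [← hkey]
        refine integral_congr_ae ?_
        filter_upwards [hzd] with t ht
        rw [ht]; simp [hw]
      have hhL : Integrable h μ := by
        rw [intervalIntegrable_iff_integrableOn_Ioo_of_le hab.le] at hhi; exact hhi
      have hwL : Integrable (fun t => w t v) μ := by
        rw [intervalIntegrable_iff_integrableOn_Ioo_of_le hab.le] at hwvi; exact hwvi
      calc ∫ t, (h t) ^ 2 ∂μ = ∫ t, (w t v * h t - m v * h t) ∂μ := by
            simp only [hh]; congr 1; funext t; ring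
        _ = 0 := by
            rw [integral_sub (hwL.mul_bdd hhL.1 hhb) (hhL.const_mul _), h1,
              MeasureTheory.integral_const_mul, hmean]
            ring
    have hhm : AEStronglyMeasurable h μ := by
      rw [intervalIntegrable_iff_integrableOn_Ioo_of_le hab.le] at hhi; exact hhi.1
    have hfin : Fact (volume (Ioo α β) < ⊤) := ⟨measure_Ioo_lt_top⟩
    have hi2 : Integrable (fun t => h t ^ 2) μ :=
      Integrable.of_bound (hhm.pow 2) (B ^ 2)
        (hhb.mono fun t ht => by rw [norm_pow]; gcongr)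
    filter_upwards [(integral_eq_zero_iff_of_nonneg (fun t => sq_nonneg (h t)) hi2).1 hsq] with t ht
    have : h t = 0 := pow_eq_zero_iff (two_ne_zero) |>.1 ht
    exact sub_eq_zero.1 this
  set P : ℝ → E →L[ℝ] ℝ := fun t => m + Q t with hP
  have hpP : ∀ᵐ t ∂μ, p t = P t := by
    set bs := Module.finBasis ℝ E
    have : ∀ᵐ t ∂μ, ∀ i, w t (bs i) = m (bs i) := ae_all_iff.2 fun i => hwv _
    filter_upwards [this] with t ht
    have he : (w t : E →ₗ[ℝ] ℝ) = (m : E →ₗ[ℝ] ℝ) := bs.ext ht
    have he' : w t = m := ContinuousLinearMap.coe_injective he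
    show p t = m + Q t
    rw [← he']
    simp [hw]
  have hPc : ContinuousOn P (Icc α β) := continuousOn_const.add hQc
  have hvel : ∀ᵐ t ∂μ, deriv x t = vel G (x t) (P t) := by
    filter_upwards [hpP, ae_restrict_mem measurableSet_Ioo] with t ht hmem
    rw [← ht]
    exact (hG.vel_eq (hxi t (Ioo_subset_Icc_self hmem))).symm
  have hzc : ContinuousOn (fun t => field G (x t, P t)) (Icc α β) :=
    hG.contDiffOn_field.continuousOn.comp (hxc.prodMk hPc) fun t ht => ⟨hxi t ht, trivial⟩
  have hx1 : ∀ t ∈ Icc α β, HasDerivWithinAt x (vel G (x t) (P t)) (Icc α β) t := by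
    intro t ht
    have heq : ∀ s ∈ Icc α β, x s = x α + ∫ u in α..s, vel G (x u) (P u) := by
      intro s hs
      have := (integral_deriv_of_lipschitz hab.le hK le_rfl hs.1 hs.2).2
      rw [eq_add_of_sub_eq' this.symm, integral_of_le hs.1, integral_of_le hs.1,
        integral_Ioc_eq_integral_Ioo, integral_Ioc_eq_integral_Ioo]
      congr 1
      exact integral_congr_ae (ae_restrict_of_ae_restrict_of_subset
        (Ioo_subset_Ioo le_rfl hs.2) hvel)
    have hc : ContinuousOn (fun u => vel G (x u) (P u)) (Icc α β) :=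
      continuous_fst.comp_continuousOn hzc
    refine HasDerivWithinAt.congr ?_ heq (heq t ht)
    have : Fact (t ∈ Icc α β) := ⟨ht⟩
    exact (intervalIntegral.integral_hasDerivWithinAt_right
      ((hc.mono (Icc_subset_Icc le_rfl ht.2)).intervalIntegrable_of_Icc ht.1)
      (hc.stronglyMeasurableAtFilter_nhdsWithin measurableSet_Icc t) (hc t ht)).const_add _
  have hP1 : ∀ t ∈ Icc α β,
      HasDerivWithinAt P (force G (x t) (vel G (x t) (P t))) (Icc α β) t := by
    intro t ht
    have hc : ContinuousOn (fun u => force G (x u) (vel G (x u) (P u))) (Icc α β) :=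
      continuous_snd.comp_continuousOn hzc
    have heq : ∀ s ∈ Icc α β, P s = m + ∫ u in α..s, force G (x u) (vel G (x u) (P u)) := by
      intro s hs
      simp only [hP, hQ]
      congr 1
      rw [integral_of_le hs.1, integral_of_le hs.1, integral_Ioc_eq_integral_Ioo,
        integral_Ioc_eq_integral_Ioo]
      refine integral_congr_ae ?_
      filter_upwards [ae_restrict_of_ae_restrict_of_subset (Ioo_subset_Ioo le_rfl hs.2) hvel]
        with u hu
      rw [hq]
      simp only [hu]
      rfl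
    refine HasDerivWithinAt.congr ?_ heq (heq t ht)
    have : Fact (t ∈ Icc α β) := ⟨ht⟩
    exact (intervalIntegral.integral_hasDerivWithinAt_right
      ((hc.mono (Icc_subset_Icc le_rfl ht.2)).intervalIntegrable_of_Icc ht.1)
      (hc.stronglyMeasurableAtFilter_nhdsWithin measurableSet_Icc t) (hc t ht)).const_add _
  refine ⟨P, fun t ht => (hx1 t ht).prodMk (hP1 t ht), fun v hv => ?_⟩
  set z : ℝ → ℝ := fun t => β - t
  have hzl : LipschitzOnWith 1 z (Icc α β) :=
    LipschitzOnWith.of_dist_le_mul fun s _ t _ => by simp [z, dist_eq_norm, abs_sub_comm]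
  have hkey := hparts v z 1 hzl (by simp [z]) (fun ε => T.smul_mem _ (T.smul_mem _ hv))
  have hzd : ∀ t, deriv z t = -1 := fun t => ((hasDerivAt_id t).const_sub β).deriv
  simp only [hzd, mul_neg, mul_one, intervalIntegral.integral_neg, neg_eq_zero] at hkey
  have hconst : ∫ t in α..β, (p t v - Q t v) = (β - α) * m v := by
    rw [show (β - α) * m v = ∫ _ in α..β, m v by simp, integral_of_le hab.le,
      integral_of_le hab.le, integral_Ioc_eq_integral_Ioo, integral_Ioc_eq_integral_Ioo]
    refine integral_congr_ae ((hwv v).mono fun t ht => ?_)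
    simpa [hw] using ht
  rw [hconst] at hkey
  have := (mul_eq_zero.1 hkey).resolve_left (sub_ne_zero.2 hab.ne')
  simp [hP, hQ, this]

/-- Solutions are smooth inside and satisfy the geodesic equation. -/
theorem solution_smooth (hG : IsMetricOn U G) {J : Set ℝ} (hJ : IsOpen J) {x : ℝ → E}
    {P : ℝ → E →L[ℝ] ℝ} (hx : ∀ t ∈ J, x t ∈ U)
    (hd : ∀ t ∈ J, HasDerivAt (fun s => (x s, P s)) (field G (x t, P t)) t) :
    ContDiffOn ℝ ∞ x J ∧ ∀ t ∈ J, ∀ v,
      deriv (fun s => G (x s) (deriv x s) v) t =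
        (1 / 2 : ℝ) * fderiv ℝ (fun y => G y (deriv x t) (deriv x t)) (x t) v := by
  have hz := contDiffOn_of_hasDerivAt hG.contDiffOn_field hJ (fun t ht => ⟨hx t ht, trivial⟩) hd
  have hx1 : ∀ t ∈ J, HasDerivAt x (vel G (x t) (P t)) t := fun t ht => (hd t ht).fst
  refine ⟨hz.fst, fun t ht v => ?_⟩
  have he : (fun s => G (x s) (deriv x s) v) =ᶠ[𝓝 t] fun s => P s v := by
    filter_upwards [hJ.mem_nhds ht] with s hs
    rw [(hx1 s hs).deriv, hG.apply_vel (hx s hs)]
  have hP : HasDerivAt (fun s => P s v) (force G (x t) (vel G (x t) (P t)) v) t := by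
    have h1 : HasDerivAt P (force G (x t) (vel G (x t) (P t))) t := (hd t ht).snd
    simpa using h1.clm_apply (hasDerivAt_const t v)
  rw [he.deriv_eq, hP.deriv, (hx1 t ht).deriv, force_apply]
  set u := vel G (x t) (P t)
  have hGd := ((hG.smooth.differentiableOn (by simp)).differentiableAt
    (hG.isOpen.mem_nhds (hx t ht))).hasFDerivAt
  have := ((hGd.clm_apply (hasFDerivAt_const u (x t))).clm_apply (hasFDerivAt_const u (x t))).fderiv
  rw [this]
  simp

/-- The reflection of a solution starting at a fixed point with momentum killing the fixed space. -/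
theorem reflect (hG : IsMetricOn U G) (S : E →L[ℝ] E) (hS : ∀ y, S (S y) = y)
    (hSU : ∀ y ∈ U, S y ∈ U) (hinv : ∀ y ∈ U, ∀ u w, G (S y) (S u) (S w) = G y u w)
    {δ : ℝ} (hδ : 0 < δ) {x : ℝ → E} {P : ℝ → E →L[ℝ] ℝ} (hx : ∀ t ∈ Icc 0 δ, x t ∈ U)
    (hd : ∀ t ∈ Icc 0 δ, HasDerivWithinAt (fun s => (x s, P s)) (field G (x t, P t)) (Icc 0 δ) t)
    (h0 : S (x 0) = x 0) (hP0 : ∀ v, S v = v → P 0 v = 0) :
    ∀ t ∈ Ioo (-δ) δ, HasDerivAt
      (fun s => (if 0 ≤ s then x s else S (x (-s)), if 0 ≤ s then P s else -((P (-s)).comp S)))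
      (field G (if 0 ≤ t then x t else S (x (-t)), if 0 ≤ t then P t else -((P (-t)).comp S))) t := by
  set R : E × (E →L[ℝ] ℝ) →L[ℝ] E × (E →L[ℝ] ℝ) :=
    (S.comp (ContinuousLinearMap.fst ℝ E (E →L[ℝ] ℝ))).prod
      (-((ContinuousLinearMap.compL ℝ E E ℝ).flip S).comp
        (ContinuousLinearMap.snd ℝ E (E →L[ℝ] ℝ))) with hR
  have hRapp : ∀ z, R z = (S z.1, -(z.2.comp S)) := fun z => rfl
  have hfield : ∀ y ∈ U, ∀ Q, field G (R (y, Q)) = -(R (field G (y, Q))) := by
    intro y hy Q
    have hv : vel G (S y) (-(Q.comp S)) = -S (vel G y Q) := by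
      apply hG.injective (hSU y hy)
      rw [hG.apply_vel (hSU y hy)]
      ext w
      have := hinv y hy (vel G y Q) (S w)
      rw [hS, hG.apply_vel hy] at this
      simp [this]
    have hder : ∀ v u, fderiv ℝ G (S y) (S v) (S u) (S u) = fderiv ℝ G y v u u := by
      intro v u
      have h1 := ((hG.smooth.differentiableOn (by simp)).differentiableAt
        (hG.isOpen.mem_nhds (hSU y hy))).hasFDerivAt.comp y S.hasFDerivAt
      have h1' := (h1.clm_apply (hasFDerivAt_const (S u) y)).clm_apply (hasFDerivAt_const (S u) y)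
      have h2 := ((hG.smooth.differentiableOn (by simp)).differentiableAt
        (hG.isOpen.mem_nhds hy)).hasFDerivAt
      have h2' := (h2.clm_apply (hasFDerivAt_const u y)).clm_apply (hasFDerivAt_const u y)
      have he : (fun z => G (S z) (S u) (S u)) =ᶠ[𝓝 y] fun z => G z u u := by
        filter_upwards [hG.isOpen.mem_nhds hy] with z hz using hinv z hz u u
      have := congrArg (fun D : E →L[ℝ] ℝ => D v)
        ((h1'.congr_of_eventuallyEq he.symm).unique h2')
      simpa using this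
    rw [hRapp, hRapp]
    simp only [field, hv, Prod.neg_mk, neg_neg]
    refine Prod.ext rfl ?_
    ext v
    simp only [force_apply, ContinuousLinearMap.comp_apply, map_neg,
      neg_apply, neg_neg]
    have := hder (S v) (vel G y Q)
    rw [hS] at this
    rw [this]
  have hR0 : R (x 0, P 0) = (x 0, P 0) := by
    rw [hRapp, h0]
    refine Prod.ext rfl ?_
    ext v
    have := hP0 (v + S v) (by rw [map_add, hS, add_comm])
    rw [map_add] at this
    simp only [neg_apply, ContinuousLinearMap.comp_apply]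
    linarith
  have hright : ∀ t ∈ Ioo (-δ) δ, 0 ≤ t → HasDerivWithinAt
      (fun s => (if 0 ≤ s then x s else S (x (-s)), if 0 ≤ s then P s else -((P (-s)).comp S)))
      (field G (x t, P t)) (Icc 0 δ) t := fun t ht h0t =>
    (hd t ⟨h0t, ht.2.le⟩).congr (fun s hs => by simp [hs.1]) (by simp [h0t])
  have hleft : ∀ t ∈ Ioo (-δ) δ, t ≤ 0 → HasDerivWithinAt
      (fun s => (if 0 ≤ s then x s else S (x (-s)), if 0 ≤ s then P s else -((P (-s)).comp S)))
      (field G (R (x (-t), P (-t)))) (Icc (-δ) 0) t := by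
    intro t ht h0t
    have hmem : -t ∈ Icc (0 : ℝ) δ := ⟨by linarith, by linarith [ht.1]⟩
    have h := (R.hasFDerivAt.comp_hasDerivWithinAt t
      ((hd (-t) hmem).scomp t (hasDerivAt_neg t).hasDerivWithinAt
        ((fun s hs => ⟨by linarith [hs.2], by linarith [hs.1]⟩) :
          MapsTo (fun s : ℝ => -s) (Icc (-δ) 0) (Icc 0 δ))))
    simp only [neg_smul, one_smul, map_neg] at h
    rw [hfield _ (hx _ hmem) _]
    refine h.congr (fun s hs => ?_) ?_
    · rcases eq_or_lt_of_le hs.2 with rfl | hs0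
      · simp [hR0]
      · simp [not_le.2 hs0, hRapp]
    · rcases eq_or_lt_of_le h0t with rfl | hs0
      · simp [hR0]
      · simp [not_le.2 hs0, hRapp]
  intro t ht
  rcases lt_trichotomy t 0 with h | rfl | h
  · have := (hleft t ht h.le).hasDerivAt (Icc_mem_nhds ht.1 h)
    simpa [not_le.2 h, hRapp] using this
  · have h1 := hright 0 ht le_rfl
    have h2 := hleft 0 ht le_rfl
    rw [neg_zero, hR0] at h2
    have := h2.union h1
    rw [Icc_union_Icc_eq_Icc (by linarith) hδ.le] at this
    simpa using this.hasDerivAt (Icc_mem_nhds (by linarith) hδ)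
  · have := (hright t ht h.le).hasDerivAt (Icc_mem_nhds h ht.2)
    simpa [h.le] using this

end

end Vale.Agent.P216.Chord
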