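import Vale.Agent.P216.Chord.Dist
import Vale.Agent.P216.Chord.Var

/-!
The metric in a parametrisation: comparison of the distance with the coordinate energy.
-/

open Bundle Manifold Set MeasureTheory Filter intervalIntegral
open scoped ContDiff Topology ENNReal NNReal

namespace Vale.Agent.P216.Chord

set_option maxSynthPendingDepth 3

noncomputable section

variable {E : Type*} [NormedAddCommGroup E] [NormedSpace ℝ E] [FiniteDimensional ℝ E]
  {M : Type*} [TopologicalSpace M] [ChartedSpace E M] [IsManifold 𝓘(ℝ, E) ∞ M]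

variable (E M) in
/-- A smooth parametrisation of an open piece of `M`. -/
structure Par where
  /-- The domain. -/
  U : Set E
  /-- The image. -/
  W : Set M
  /-- The parametrisation. -/
  ψ : E → M
  /-- The coordinates. -/
  φ : M → E
  openU : IsOpen U
  openW : IsOpen W
  mapsψ : MapsTo ψ U W
  mapsφ : MapsTo φ W U
  left : ∀ y ∈ U, φ (ψ y) = y
  right : ∀ m ∈ W, ψ (φ m) = m
  smoothψ : ContMDiffOn 𝓘(ℝ, E) 𝓘(ℝ, E) ∞ ψ U
  smoothφ : ContMDiffOn 𝓘(ℝ, E) 𝓘(ℝ, E) ∞ φ W

/-- The inverse of an extended chart. -/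
def Par.chart (p : M) : Par E M where
  U := (extChartAt 𝓘(ℝ, E) p).target
  W := (extChartAt 𝓘(ℝ, E) p).source
  ψ := (extChartAt 𝓘(ℝ, E) p).symm
  φ := extChartAt 𝓘(ℝ, E) p
  openU := isOpen_extChartAt_target p
  openW := isOpen_extChartAt_source p
  mapsψ := fun _ h => (extChartAt 𝓘(ℝ, E) p).map_target h
  mapsφ := fun _ h => (extChartAt 𝓘(ℝ, E) p).map_source h
  left := fun _ h => (extChartAt 𝓘(ℝ, E) p).right_inv h
  right := fun _ h => (extChartAt 𝓘(ℝ, E) p).left_inv h
  smoothψ := contMDiffOn_extChartAt_symm p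
  smoothφ := contMDiffOn_extChartAt.mono (by rw [extChartAt_source])

variable (g : ContMDiffRiemannianMetric 𝓘(ℝ, E) ∞ E (fun x : M => TangentSpace 𝓘(ℝ, E) x))

/-- The metric in the coordinates of a parametrisation. -/
def Par.pull (P : Par E M) (y : E) : E →L[ℝ] E →L[ℝ] ℝ :=
  let D : E →L[ℝ] E := mfderiv 𝓘(ℝ, E) 𝓘(ℝ, E) P.ψ y
  let B : E →L[ℝ] E →L[ℝ] ℝ := g.inner (P.ψ y)
  B.bilinearComp D D

theorem Par.chart_pull (p : M) : (Par.chart (E := E) p).pull g = metricInChart g p := rfl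

variable {g} (P : Par E M)

omit [FiniteDimensional ℝ E] in
theorem Par.pull_apply (y u w : E) : P.pull g y u w =
    g.inner (P.ψ y) (mfderiv 𝓘(ℝ, E) 𝓘(ℝ, E) P.ψ y u) (mfderiv 𝓘(ℝ, E) 𝓘(ℝ, E) P.ψ y w) := rfl

omit [FiniteDimensional ℝ E] in
theorem Par.mfderiv_ne_zero {y : E} (hy : y ∈ P.U) {v : E} (hv : v ≠ 0) :
    mfderiv 𝓘(ℝ, E) 𝓘(ℝ, E) P.ψ y v ≠ 0 := by
  intro h0
  have hψ := (P.smoothψ.contMDiffAt (P.openU.mem_nhds hy)).mdifferentiableAt (by simp)
  have hφ := (P.smoothφ.contMDiffAt (P.openW.mem_nhds (P.mapsψ hy))).mdifferentiableAt (by simp)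
  have hid : P.φ ∘ P.ψ =ᶠ[𝓝 y] id := eventually_of_mem (P.openU.mem_nhds hy) P.left
  have he := (mfderiv_comp y hφ hψ).symm.trans (hid.mfderiv_eq.trans mfderiv_id)
  have := congrArg (fun T : E →L[ℝ] E => T v) he
  change mfderiv 𝓘(ℝ, E) 𝓘(ℝ, E) P.φ (P.ψ y) (mfderiv 𝓘(ℝ, E) 𝓘(ℝ, E) P.ψ y v) = v at this
  rw [h0] at this
  erw [map_zero] at this
  exact hv this.symm

attribute [irreducible] Par.pull

theorem Par.isMetricOn : IsMetricOn P.U (P.pull g) := by
  refine ⟨P.openU, ?_, fun y _ u w => ?_, fun y hy v hv => ?_⟩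
  rotate_left
  · rw [P.pull_apply, P.pull_apply]
    exact g.symm _ _ _
  · rw [P.pull_apply]
    exact g.pos _ _ (P.mfderiv_ne_zero hy hv)
  · have ho := P.openU
    have hT := P.smoothψ.contMDiffOn_tangentMapWithin (m := ∞) le_rfl ho.uniqueMDiffOn
    have hv : ∀ u : E, ∀ y₀ ∈ P.U, ContMDiffAt 𝓘(ℝ, E) (𝓘(ℝ, E).prod 𝓘(ℝ, E)) ∞
        (fun y => (TotalSpace.mk' E (P.ψ y) (mfderiv 𝓘(ℝ, E) 𝓘(ℝ, E) P.ψ y u) :
          TangentBundle 𝓘(ℝ, E) M)) y₀ := by
      intro u y₀ hy
      have h1 : ContMDiffOn 𝓘(ℝ, E) (𝓘(ℝ, E).prod 𝓘(ℝ, E)) ∞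
          (fun y => (TotalSpace.mk' E y u : TangentBundle 𝓘(ℝ, E) E)) P.U :=
        contMDiffOn_vectorSpace_iff_contDiffOn.2 contDiffOn_const
      have h2 := (hT.comp h1 fun y hy => hy).contMDiffAt (ho.mem_nhds hy)
      refine h2.congr_of_eventuallyEq ?_
      filter_upwards [ho.mem_nhds hy] with y hy'
      simp only [Function.comp_apply, tangentMapWithin]
      rw [mfderivWithin_of_isOpen ho hy']
    refine contDiffOn_clm_apply.2 fun u => contDiffOn_clm_apply.2 fun w => fun y₁ hy₁ => ?_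
    refine ContDiffAt.contDiffWithinAt ?_
    have hψat : ContMDiffAt 𝓘(ℝ, E) 𝓘(ℝ, E) ∞ P.ψ y₁ := P.smoothψ.contMDiffAt (ho.mem_nhds hy₁)
    have h3 : ContMDiffAt 𝓘(ℝ, E) (𝓘(ℝ, E).prod 𝓘(ℝ)) ∞
        (fun y => TotalSpace.mk' ℝ (E := Bundle.Trivial M ℝ) (P.ψ y)
          (g.inner (P.ψ y) (mfderiv 𝓘(ℝ, E) 𝓘(ℝ, E) P.ψ y u)
            (mfderiv 𝓘(ℝ, E) 𝓘(ℝ, E) P.ψ y w))) y₁ := by
      apply ContMDiffAt.clm_bundle_apply₂ (F₁ := E) (F₂ := E)
      · exact g.contMDiff.contMDiffAt.comp y₁ hψat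
      · exact hv u y₁ hy₁
      · exact hv w y₁ hy₁
    simp only [contMDiffAt_totalSpace] at h3
    refine h3.2.contDiffAt.congr_of_eventuallyEq (Eventually.of_forall fun y => ?_)
    exact P.pull_apply y u w

/-- The speed of a curve read in coordinates. -/
theorem Par.speed_comp {y : ℝ → E} {t : ℝ} (hy : y t ∈ P.U) (hd : DifferentiableAt ℝ y t) :
    speed g (P.ψ ∘ y) t = √(P.pull g (y t) (deriv y t) (deriv y t)) := by
  have hψ := (P.smoothψ.contMDiffAt (P.openU.mem_nhds hy)).mdifferentiableAt (by simp)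
  have h := (hψ.hasMFDerivAt.comp t (hasMFDerivAt_iff_hasFDerivAt.2 hd.hasFDerivAt)).mfderiv
  unfold speed
  simp only [h]
  rw [P.pull_apply]
  rfl

/-- The norm of the metric at a point. -/
def nrm (G : E → E →L[ℝ] E →L[ℝ] ℝ) (y v : E) : ℝ := √(G y v v)

omit [FiniteDimensional ℝ E] in
theorem nrm_nonneg (G : E → E →L[ℝ] E →L[ℝ] ℝ) (y v : E) : 0 ≤ nrm G y v := Real.sqrt_nonneg _

omit [FiniteDimensional ℝ E] in
theorem nrm_smul (G : E → E →L[ℝ] E →L[ℝ] ℝ) (y v : E) {r : ℝ} (hr : 0 ≤ r) :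
    nrm G y (r • v) = r * nrm G y v := by
  unfold nrm
  simp only [map_smul, smul_apply, smul_eq_mul]
  rw [← mul_assoc, Real.sqrt_mul (mul_self_nonneg r), Real.sqrt_mul_self hr]

variable {U : Set E} {G : E → E →L[ℝ] E →L[ℝ] ℝ}

omit [FiniteDimensional ℝ E] in
theorem IsMetricOn.nonneg (hG : IsMetricOn U G) {y : E} (hy : y ∈ U) (v : E) : 0 ≤ G y v v := by
  rcases eq_or_ne v 0 with rfl | hv
  · simp
  · exact (hG.pos y hy v hv).le

omit [FiniteDimensional ℝ E] in
theorem IsMetricOn.inner_le (hG : IsMetricOn U G) {y : E} (hy : y ∈ U) (u w : E) :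
    G y u w ≤ nrm G y u * nrm G y w := by
  rw [nrm, nrm, ← Real.sqrt_mul (hG.nonneg hy u)]
  apply Real.le_sqrt_of_sq_le
  have h : ∀ r : ℝ, 0 ≤ G y u u - 2 * r * G y u w + r ^ 2 * G y w w := fun r => by
    have := hG.nonneg hy (u - r • w)
    simp only [map_sub, map_smul, sub_apply, smul_apply, smul_eq_mul, hG.symm y hy w u] at this
    linarith
  rcases eq_or_ne w 0 with rfl | hw
  · simp
  · have hp := hG.pos y hy w hw
    have := h (G y u w / G y w w)
    have h2 : G y u u - 2 * (G y u w / G y w w) * G y u w +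
        (G y u w / G y w w) ^ 2 * G y w w = G y u u - G y u w ^ 2 / G y w w := by
      field_simp; ring
    rw [h2, sub_nonneg, div_le_iff₀ hp] at this
    linarith

theorem IsMetricOn.continuousOn_nrm (hG : IsMetricOn U G) :
    ContinuousOn (fun q : E × E => nrm G q.1 q.2) (U ×ˢ univ) := by
  refine Real.continuous_sqrt.comp_continuousOn ?_
  exact ((hG.smooth.continuousOn.comp continuousOn_fst fun q hq => hq.1).clm_apply
    continuousOn_snd).clm_apply continuousOn_snd

theorem IsMetricOn.continuousOn_nrm_comp (hG : IsMetricOn U G) {X : Type*} [TopologicalSpace X]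
    {s : Set X} {y d : X → E} (hy : ContinuousOn y s) (hyU : ∀ t ∈ s, y t ∈ U)
    (hd : ContinuousOn d s) : ContinuousOn (fun t => nrm G (y t) (d t)) s :=
  ContinuousOn.comp (g := fun q : E × E => nrm G q.1 q.2) hG.continuousOn_nrm
    (hy.prodMk hd) fun t ht => ⟨hyU t ht, trivial⟩

/-- The norm of an integral is at most the integral of the norm, for a frozen metric. -/
theorem IsMetricOn.nrm_integral_le (hG : IsMetricOn U G) {y : E} (hy : y ∈ U) {a b : ℝ}
    (hab : a ≤ b) {u : ℝ → E} (hu : IntervalIntegrable u volume a b)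
    (hn : IntervalIntegrable (fun t => nrm G y (u t)) volume a b) :
    nrm G y (∫ t in a..b, u t) ≤ ∫ t in a..b, nrm G y (u t) := by
  have : CompleteSpace E := FiniteDimensional.complete ℝ E
  set w := ∫ t in a..b, u t
  rcases (nrm_nonneg G y w).eq_or_lt with h | h
  · rw [← h]; exact integral_nonneg hab fun t _ => nrm_nonneg G y _
  · refine le_of_mul_le_mul_left ?_ h
    rw [← intervalIntegral.integral_const_mul]
    calc nrm G y w * nrm G y w = G y w w := Real.mul_self_sqrt (hG.nonneg hy w)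
      _ = ∫ t in a..b, G y w (u t) := ((G y w).intervalIntegral_comp_comm hu).symm
      _ ≤ _ := intervalIntegral.integral_mono_on hab
            ⟨(G y w).integrable_comp hu.1, (G y w).integrable_comp hu.2⟩
            (hn.const_mul _) fun t _ => hG.inner_le hy w (u t)

theorem IsMetricOn.le_nrm (hG : IsMetricOn U G) {y : E} (hy : y ∈ U) :
    ∃ c > 0, ∀ v, c * ‖v‖ ≤ nrm G y v := by
  by_cases hS : (Metric.sphere (0 : E) 1).Nonempty
  · have hc : ContinuousOn (fun v => nrm G y v) (Metric.sphere (0 : E) 1) :=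
      hG.continuousOn_nrm_comp continuousOn_const (fun _ _ => hy) continuousOn_id
    obtain ⟨v₀, hv₀, hmin⟩ := (isCompact_sphere (0 : E) 1).exists_isMinOn hS hc
    have hv0 : v₀ ≠ 0 := by rintro rfl; simp at hv₀
    refine ⟨nrm G y v₀, Real.sqrt_pos.2 (hG.pos y hy v₀ hv0), fun v => ?_⟩
    rcases eq_or_ne v 0 with rfl | hv
    · simp [nrm]
    have hn : ‖‖v‖⁻¹ • v‖ = 1 := by simp [norm_smul, hv]
    have hle : nrm G y v₀ ≤ nrm G y (‖v‖⁻¹ • v) := hmin (by simpa [Metric.mem_sphere] using hn)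
    rw [nrm_smul _ _ _ (inv_nonneg.2 (norm_nonneg v))] at hle
    rwa [le_inv_mul_iff₀ (norm_pos_iff.2 hv), mul_comm] at hle
  · refine ⟨1, one_pos, fun v => ?_⟩
    rcases eq_or_ne v 0 with rfl | hv
    · simp [nrm]
    · exact absurd ⟨‖v‖⁻¹ • v, by simp [norm_smul, hv]⟩ hS

theorem IsMetricOn.nrm_le (hG : IsMetricOn U G) {y : E} (hy : y ∈ U) :
    ∃ C > 0, ∀ v, nrm G y v ≤ C * ‖v‖ := by
  refine ⟨√‖G y‖ + 1, by positivity, fun v => ?_⟩
  calc nrm G y v ≤ √(‖G y‖ * ‖v‖ * ‖v‖) :=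
        Real.sqrt_le_sqrt ((Real.le_norm_self _).trans ((G y).le_opNorm₂ v v))
    _ = √‖G y‖ * ‖v‖ := by
        rw [mul_assoc, Real.sqrt_mul (norm_nonneg _), Real.sqrt_mul_self (norm_nonneg v)]
    _ ≤ _ := by nlinarith [norm_nonneg v]

/-- Near a point the norms are almost constant. -/
theorem IsMetricOn.nrm_near (hG : IsMetricOn U G) {y₀ : E} (hy : y₀ ∈ U) {ε : ℝ} (hε : 0 < ε) :
    ∃ ρ > 0, Metric.closedBall y₀ ρ ⊆ U ∧
      ∀ y ∈ Metric.closedBall y₀ ρ, ∀ v, (1 - ε) * nrm G y₀ v ≤ nrm G y v := by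
  obtain ⟨c, hc, hcv⟩ := hG.le_nrm hy
  obtain ⟨r, hr, hrU⟩ := Metric.nhds_basis_closedBall.mem_iff.1 (hG.isOpen.mem_nhds hy)
  have hK : IsCompact (Metric.closedBall y₀ r ×ˢ Metric.closedBall (0 : E) 1) :=
    (isCompact_closedBall _ _).prod (isCompact_closedBall _ _)
  have hu := hK.uniformContinuousOn_of_continuous
    (hG.continuousOn_nrm.mono (prod_mono hrU (subset_univ _)))
  obtain ⟨η, hη, hηd⟩ := Metric.uniformContinuousOn_iff.1 hu (ε * c) (by positivity)
  refine ⟨min r (η / 2), lt_min hr (by positivity),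
    (Metric.closedBall_subset_closedBall (min_le_left _ _)).trans hrU, fun y hy' v => ?_⟩
  rcases eq_or_ne v 0 with rfl | hv
  · simp [nrm]
  set w := ‖v‖⁻¹ • v
  have hw : ‖w‖ = 1 := by simp [w, norm_smul, hv]
  rw [Metric.mem_closedBall, le_min_iff] at hy'
  have hd := hηd (y, w) ⟨hy'.1, by simp [hw]⟩ (y₀, w) ⟨by simp [hr.le], by simp [hw]⟩ (by
    simp only [Prod.dist_eq, dist_self, max_lt_iff]
    exact ⟨by linarith [hy'.2], hη⟩)
  rw [Real.dist_eq] at hd
  have h1 : (1 - ε) * nrm G y₀ w ≤ nrm G y w := by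
    have := (abs_lt.1 hd).1
    have := hcv w
    rw [hw, mul_one] at this
    nlinarith
  have hv' : v = ‖v‖ • w := by simp [w, smul_smul, hv]
  rw [hv', nrm_smul _ _ _ (norm_nonneg v), nrm_smul _ _ _ (norm_nonneg v)]
  nlinarith [norm_nonneg v]

variable [T2Space M] [CompactSpace M] [PreconnectedSpace M]

theorem Par.glen_ge (y : ℝ → E) {a b : ℝ} (hab : a ≤ b) (hy : ContDiffOn ℝ 1 y (Icc a b))
    (hyU : ∀ t ∈ Icc a b, y t ∈ P.U) {y₀ : E} (hy₀ : y₀ ∈ P.U) {ε : ℝ} (hε : ε ≤ 1)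
    (hnear : ∀ t ∈ Icc a b, ∀ v, (1 - ε) * nrm (P.pull g) y₀ v ≤ nrm (P.pull g) (y t) v) :
    ENNReal.ofReal ((1 - ε) * nrm (P.pull g) y₀ (y b - y a)) ≤ glen g (P.ψ ∘ y) a b := by
  rcases hab.eq_or_lt with rfl | hlt
  · simp [nrm]
  have hG := P.isMetricOn (g := g)
  have hd : ContinuousOn (derivWithin y (Icc a b)) (Icc a b) :=
    hy.continuousOn_derivWithin (uniqueDiffOn_Icc hlt) le_rfl
  have hder : ∀ t ∈ Ioo a b, HasDerivAt y (derivWithin y (Icc a b) t) t := fun t ht =>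
    ((hy.differentiableOn one_ne_zero t (Ioo_subset_Icc_self ht)).hasDerivWithinAt).hasDerivAt
      (Icc_mem_nhds ht.1 ht.2)
  have hint := integral_eq_sub_of_hasDerivAt_of_le hab hy.continuousOn hder
    (hd.intervalIntegrable_of_Icc hab)
  have hc0 : ContinuousOn (fun t => (1 - ε) * nrm (P.pull g) y₀ (derivWithin y (Icc a b) t))
      (Icc a b) := continuousOn_const.mul
    (hG.continuousOn_nrm_comp continuousOn_const (fun _ _ => hy₀) hd)
  calc ENNReal.ofReal ((1 - ε) * nrm (P.pull g) y₀ (y b - y a))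
      ≤ ENNReal.ofReal (∫ t in a..b, (1 - ε) * nrm (P.pull g) y₀ (derivWithin y (Icc a b) t)) := by
        refine ENNReal.ofReal_le_ofReal ?_
        rw [intervalIntegral.integral_const_mul, ← hint]
        refine mul_le_mul_of_nonneg_left (hG.nrm_integral_le hy₀ hab
          (hd.intervalIntegrable_of_Icc hab) ?_) (by linarith)
        exact (hG.continuousOn_nrm_comp continuousOn_const (fun _ _ => hy₀)
          hd).intervalIntegrable_of_Icc hab
    _ = ∫⁻ t in Icc a b,
          ENNReal.ofReal ((1 - ε) * nrm (P.pull g) y₀ (derivWithin y (Icc a b) t)) := by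
        rw [integral_of_le hab, ← integral_Icc_eq_integral_Ioc,
          ofReal_integral_eq_lintegral_ofReal hc0.integrableOn_Icc]
        exact Eventually.of_forall fun t => mul_nonneg (by linarith) (nrm_nonneg _ _ _)
    _ ≤ glen g (P.ψ ∘ y) a b := by
        rw [glen_eq, setLIntegral_congr Ioo_ae_eq_Icc.symm, setLIntegral_congr Ioo_ae_eq_Icc.symm]
        refine setLIntegral_mono' measurableSet_Ioo fun t ht => ENNReal.ofReal_le_ofReal ?_
        rw [P.speed_comp (hyU t (Ioo_subset_Icc_self ht)) (hder t ht).differentiableAt,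
          (hder t ht).deriv]
        exact hnear t (Ioo_subset_Icc_self ht) _

/-- The distance dominates the coordinate norm near a point. -/
theorem Par.lower {y₀ : E} (hy₀ : y₀ ∈ P.U) {ε : ℝ} (hε : 0 < ε) (hε1 : ε < 1) :
    ∃ ρ > 0, Metric.ball y₀ ρ ⊆ P.U ∧ ∀ y ∈ Metric.ball y₀ ρ, ∀ z ∈ Metric.ball y₀ ρ,
      (1 - ε) * nrm (P.pull g) y₀ (z - y) ≤ gdist g (P.ψ y) (P.ψ z) := by
  have hG := P.isMetricOn (g := g)
  obtain ⟨r, hr, hrU, hnear⟩ := hG.nrm_near hy₀ hε
  obtain ⟨c, hc, hcv⟩ := hG.le_nrm hy₀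
  obtain ⟨C, hC, hCv⟩ := hG.nrm_le hy₀
  set ρ := min (r / 2) (c * r / (4 * C))
  have hρ : 0 < ρ := by positivity
  have hρr : ρ ≤ r / 2 := min_le_left _ _
  refine ⟨ρ, hρ, (Metric.ball_subset_closedBall.trans
    (Metric.closedBall_subset_closedBall (by linarith))).trans hrU, fun y hy z hz => ?_⟩
  rw [gdist, ← ENNReal.ofReal_le_iff_le_toReal (gedist_ne_top _ _)]
  refine le_of_forall_gt fun R hR => ?_
  obtain ⟨γ, h0, h1, hs, hl⟩ := exists_path hR
  refine lt_of_le_of_lt ?_ hl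
  set V : Set M := P.ψ '' Metric.ball y₀ r
  have hball : Metric.ball y₀ r ⊆ P.U := Metric.ball_subset_closedBall.trans hrU
  have hV : IsOpen V := by
    have : V = P.W ∩ P.φ ⁻¹' Metric.ball y₀ r := by
      ext m
      constructor
      · rintro ⟨e, he, rfl⟩
        refine ⟨P.mapsψ (hball he), ?_⟩
        rw [mem_preimage, P.left e (hball he)]
        exact he
      · rintro ⟨hm, he⟩
        exact ⟨P.φ m, he, P.right m hm⟩
    rw [this]
    exact P.smoothφ.continuousOn.isOpen_inter_preimage P.openW Metric.isOpen_ball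
  set K : Set M := P.ψ '' Metric.closedBall y₀ r
  have hK : IsClosed K := ((isCompact_closedBall y₀ r).image_of_continuousOn
    (P.smoothψ.continuousOn.mono hrU)).isClosed
  -- a segment of the path inside the chart
  have key : ∀ τ ∈ Icc (0 : ℝ) 1, (∀ s ∈ Icc 0 τ, γ s ∈ K) →
      ENNReal.ofReal ((1 - ε) * nrm (P.pull g) y₀ (P.φ (γ τ) - y)) ≤ glen g γ 0 1 := by
    intro τ hτ hin
    have hW : ∀ s ∈ Icc 0 τ, γ s ∈ P.W := fun s hs => by
      obtain ⟨e, he, hes⟩ := hin s hs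
      exact hes ▸ P.mapsψ (hrU he)
    have hcd : ContDiffOn ℝ 1 (P.φ ∘ γ) (Icc 0 τ) :=
      contMDiffOn_iff_contDiffOn.1 ((P.smoothφ.of_le (by simp)).comp hs.contMDiffOn hW)
    have hmem : ∀ s ∈ Icc 0 τ, (P.φ ∘ γ) s ∈ Metric.closedBall y₀ r := fun s hs => by
      obtain ⟨e, he, hes⟩ := hin s hs
      rw [Function.comp_apply, ← hes, P.left e (hrU he)]
      exact he
    have h := P.glen_ge (g := g) (P.φ ∘ γ) hτ.1 hcd (fun s hs => hrU (hmem s hs)) hy₀ hε1.le
      fun s hs => hnear _ (hmem s hs)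
    rw [Function.comp_apply, Function.comp_apply, h0,
      P.left y (hball (Metric.ball_subset_ball (by linarith) hy))] at h
    refine h.trans (le_trans (le_of_eq ?_) (le_self_add.trans_eq (glen_add hτ.1 hτ.2)))
    rw [glen_eq, glen_eq, setLIntegral_congr Ioo_ae_eq_Icc.symm,
      setLIntegral_congr Ioo_ae_eq_Icc.symm]
    refine setLIntegral_congr_fun measurableSet_Ioo fun s hs => congrArg _ ?_
    have he : P.ψ ∘ (P.φ ∘ γ) =ᶠ[𝓝 s] γ :=
      eventually_of_mem (Ioo_mem_nhds hs.1 hs.2) fun t ht =>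
        P.right _ (hW t (Ioo_subset_Icc_self ht))
    have hp : P.ψ (P.φ (γ s)) = γ s := P.right _ (hW s (Ioo_subset_Icc_self hs))
    unfold speed
    simp only [he.mfderiv_eq, Function.comp_apply]
    exact congrArg (fun m : M => √(g.inner m (mfderiv 𝓘(ℝ, ℝ) 𝓘(ℝ, E) γ s (1 : ℝ) : E)
      (mfderiv 𝓘(ℝ, ℝ) 𝓘(ℝ, E) γ s (1 : ℝ) : E))) hp
  by_cases hall : ∀ s ∈ Icc (0 : ℝ) 1, γ s ∈ V
  · have := key 1 ⟨zero_le_one, le_rfl⟩ fun s hs =>
      image_mono Metric.ball_subset_closedBall (hall s hs)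
    rwa [h1, P.left z (hball (Metric.ball_subset_ball (by linarith) hz))] at this
  push Not at hall
  obtain ⟨τ, ⟨hτI, hτV⟩, hmin⟩ := ((isCompact_Icc (a := (0 : ℝ)) (b := 1)).inter_right
    ((hV.isClosed_compl.preimage hs.continuous))).exists_isMinOn
    (hall.imp fun s h => ⟨h.1, h.2⟩) continuous_id.continuousOn
  have hbefore : ∀ s ∈ Ico 0 τ, γ s ∈ V := fun s hs => by
    by_contra hc
    exact absurd (hmin ⟨⟨hs.1, hs.2.le.trans hτI.2⟩, hc⟩) (not_le.2 hs.2)
  have hτ0 : 0 < τ := by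
    rcases hτI.1.eq_or_lt with h | h
    · refine absurd ?_ hτV
      rw [← h, h0]
      exact ⟨y, Metric.ball_subset_ball (by linarith) hy, rfl⟩
    · exact h
  have hτK : γ τ ∈ K := by
    have : τ ∈ closure (Ico 0 τ) := by rw [closure_Ico hτ0.ne]; exact ⟨hτ0.le, le_rfl⟩
    have hsub : γ '' Ico 0 τ ⊆ K := by
      rintro _ ⟨s, hs, rfl⟩
      exact image_mono Metric.ball_subset_closedBall (hbefore s hs)
    exact closure_minimal hsub hK (mem_closure_image hs.continuous.continuousAt this)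
  have hk := key τ hτI fun s hs => by
    rcases hs.2.eq_or_lt with rfl | h
    · exact hτK
    · exact image_mono Metric.ball_subset_closedBall (hbefore s ⟨hs.1, h⟩)
  refine le_trans (ENNReal.ofReal_le_ofReal ?_) hk
  refine mul_le_mul_of_nonneg_left ?_ (by linarith)
  obtain ⟨e, he, hee⟩ := hτK
  rw [← hee, P.left e (hrU he)]
  have her : r ≤ ‖e - y₀‖ := by
    by_contra hc
    exact hτV ⟨e, mem_ball_iff_norm.2 (not_le.1 hc), hee⟩
  rw [mem_ball_iff_norm] at hy hz
  have h4 : ‖e - y₀‖ ≤ ‖e - y‖ + ‖y - y₀‖ := norm_sub_le_norm_sub_add_norm_sub e y y₀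
  have h5 : ‖z - y‖ ≤ ‖z - y₀‖ + ‖y₀ - y‖ := norm_sub_le_norm_sub_add_norm_sub z y₀ y
  rw [norm_sub_rev y₀ y] at h5
  have hρ2 : ρ ≤ c * r / (4 * C) := min_le_right _ _
  rw [le_div_iff₀ (by positivity)] at hρ2
  calc nrm (P.pull g) y₀ (z - y) ≤ C * ‖z - y‖ := hCv _
    _ ≤ c * ‖e - y‖ := by nlinarith
    _ ≤ nrm (P.pull g) y₀ (e - y) := hcv _

theorem Par.seg_le {δ η ε h : ℝ} {S : Set E} {K : ℝ} (hδU : Metric.cthickening δ S ⊆ P.U)
    (hηd : ∀ p ∈ Metric.cthickening δ S ×ˢ Metric.closedBall (0 : E) (K + 1),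
      ∀ q ∈ Metric.cthickening δ S ×ˢ Metric.closedBall (0 : E) (K + 1),
      dist p q < η → dist (nrm (P.pull g) p.1 p.2) (nrm (P.pull g) q.1 q.2) < ε)
    (hh0 : 0 < h) (hε : 0 < ε) (hη : 0 < η) {a b : E} (ha : a ∈ S)
    (hD : ‖h⁻¹ • (b - a)‖ ≤ K + 1) (hΔη : ‖b - a‖ < η) (hΔδ : ‖b - a‖ ≤ δ) :
    gdist g (P.ψ a) (P.ψ b) ≤ nrm (P.pull g) a (b - a) + ε * h := by
  set Δ := b - a with hΔ
  set l : ℝ → E := fun r => a + r • Δ
  have hln : ∀ r ∈ Icc (0 : ℝ) 1, ‖l r - a‖ ≤ ‖Δ‖ := fun r hr => by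
    simp only [l, add_sub_cancel_left, norm_smul, Real.norm_eq_abs, abs_of_nonneg hr.1]
    exact mul_le_of_le_one_left (norm_nonneg _) hr.2
  have hlmem : ∀ r ∈ Icc (0 : ℝ) 1, l r ∈ Metric.cthickening δ S := fun r hr =>
    Metric.mem_cthickening_of_dist_le _ a δ _ ha
      (by rw [dist_eq_norm]; exact (hln r hr).trans hΔδ)
  have hld : ∀ r, HasDerivAt l Δ r := fun r => by
    show HasDerivAt (fun r => a + r • Δ) Δ r
    simpa using ((hasDerivAt_id r).smul_const Δ).const_add a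
  have hlc : ContDiff ℝ 1 l := contDiff_const.add (contDiff_id.smul contDiff_const)
  have hg := gedist_le (g := g) (γ := P.ψ ∘ l) (a := 0) (b := 1)
    ((P.smoothψ.of_le (by simp)).comp hlc.contMDiff.contMDiffOn
      fun r hr => hδU (hlmem r hr)) zero_le_one
  have e1 : l 1 = b := by simp [l, hΔ]
  have e0 : l 0 = a := by simp [l]
  rw [Function.comp_apply, Function.comp_apply, e0, e1] at hg
  have hpos : 0 ≤ nrm (P.pull g) a Δ + ε * h := add_nonneg (nrm_nonneg _ _ _) (by positivity)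
  refine gdist_le_of_gedist_le hpos (hg.trans ?_)
  rw [glen_eq]
  refine (setLIntegral_mono' (g := fun _ => ENNReal.ofReal (nrm (P.pull g) a Δ + ε * h))
    measurableSet_Icc fun r hr => ?_).trans (by simp)
  refine ENNReal.ofReal_le_ofReal ?_
  rw [P.speed_comp (hδU (hlmem r hr)) (hld r).differentiableAt, (hld r).deriv]
  show nrm (P.pull g) (l r) Δ ≤ _
  have := hηd (l r, h⁻¹ • Δ) ⟨hlmem r hr, mem_closedBall_zero_iff.2 hD⟩ (a, h⁻¹ • Δ)
    ⟨Metric.self_subset_cthickening _ ha, mem_closedBall_zero_iff.2 hD⟩ (by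
      simp only [Prod.dist_eq, dist_self, max_lt_iff]
      exact ⟨by rw [dist_eq_norm]; exact lt_of_le_of_lt (hln r hr) hΔη, hη⟩)
  rw [Real.dist_eq] at this
  have h2 := (abs_lt.1 this).2
  rw [nrm_smul _ _ _ (inv_pos.2 hh0).le, nrm_smul _ _ _ (inv_pos.2 hh0).le,
    ← mul_sub, inv_mul_lt_iff₀ hh0] at h2
  linarith only [h2]

omit [FiniteDimensional ℝ E] in
theorem nrm_freeze {G : E → E →L[ℝ] E →L[ℝ] ℝ} {S : Set E} {y : ℝ → E} {u : E}
    {K : ℝ≥0} {η ε α β s t h : ℝ} (hy : LipschitzOnWith K y (Icc α β))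
    (hηd : ∀ p ∈ S ×ˢ Metric.closedBall (0 : E) (K + 1),
      ∀ q ∈ S ×ˢ Metric.closedBall (0 : E) (K + 1),
      dist p q < η → dist (nrm G p.1 p.2) (nrm G q.1 q.2) < ε)
    (hη : 0 < η) (hs : s ∈ Icc α β) (ht : t ∈ Icc α β) (hys : y s ∈ S) (hyt : y t ∈ S)
    (hu : ‖u‖ ≤ K + 1) (hst : t ∈ Icc s (s + h)) (hK : K * h < η) :
    nrm G (y s) u ≤ nrm G (y t) u + ε := by
  have := hηd (y s, u) ⟨hys, mem_closedBall_zero_iff.2 hu⟩
    (y t, u) ⟨hyt, mem_closedBall_zero_iff.2 hu⟩ (by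
      simp only [Prod.dist_eq, dist_self, max_lt_iff]
      refine ⟨?_, hη⟩
      refine lt_of_le_of_lt ((hy.dist_le_mul s hs t ht).trans ?_) hK
      refine mul_le_mul_of_nonneg_left ?_ K.coe_nonneg
      rw [Real.dist_eq, abs_le]
      constructor <;> linarith [hst.1, hst.2])
  rw [Real.dist_eq] at this
  linarith [(abs_lt.1 this).2]

theorem energy_of_length (hG : IsMetricOn U G) {y : ℝ → E} {α β L C : ℝ} (hab : α < β)
    (hL : 0 ≤ L) (hyU : ∀ t ∈ Icc α β, y t ∈ U)
    (hN : IntervalIntegrable (fun t => nrm G (y t) (deriv y t)) volume α β)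
    (hmain : L * (β - α) ≤ ∫ t in α..β, nrm G (y t) (deriv y t))
    (hb : ∀ᵐ t ∂volume.restrict (Ioo α β), ‖nrm G (y t) (deriv y t)‖ ≤ C)
    (hm : AEStronglyMeasurable (fun t => G (y t) (deriv y t) (deriv y t))
      (volume.restrict (Ioo α β))) :
    L ^ 2 * (β - α) ≤ ∫ t in α..β, G (y t) (deriv y t) (deriv y t) := by
  have hN2b : ∀ᵐ t ∂volume.restrict (Ioo α β),
      ‖G (y t) (deriv y t) (deriv y t)‖ ≤ C ^ 2 := by
    filter_upwards [hb, ae_restrict_mem measurableSet_Ioo] with t ht hmem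
    have hnn := hG.nonneg (hyU t (Ioo_subset_Icc_self hmem)) (deriv y t)
    rw [Real.norm_eq_abs, abs_of_nonneg (nrm_nonneg _ _ _)] at ht
    rw [Real.norm_eq_abs, abs_of_nonneg hnn, ← Real.sq_sqrt hnn]
    exact pow_le_pow_left₀ (Real.sqrt_nonneg _) ht 2
  have hGi : IntervalIntegrable (fun t => G (y t) (deriv y t) (deriv y t)) volume α β :=
    (intervalIntegrable_iff_integrableOn_Ioo_of_le hab.le).2 (IntegrableOn.of_bound
      measure_Ioo_lt_top hm _ hN2b)
  have hsq : 2 * L * ∫ t in α..β, nrm G (y t) (deriv y t) ≤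
      ∫ t in α..β, (L ^ 2 + G (y t) (deriv y t) (deriv y t)) := by
    rw [← intervalIntegral.integral_const_mul]
    refine intervalIntegral.integral_mono_on hab.le (hN.const_mul _)
      (intervalIntegrable_const.add hGi) fun t ht => ?_
    have h1 : nrm G (y t) (deriv y t) ^ 2 = G (y t) (deriv y t) (deriv y t) :=
      Real.sq_sqrt (hG.nonneg (hyU t ht) (deriv y t))
    nlinarith only [h1, sq_nonneg (L - nrm G (y t) (deriv y t))]
  rw [intervalIntegral.integral_add intervalIntegrable_const hGi,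
    intervalIntegral.integral_const, smul_eq_mul] at hsq
  nlinarith only [hsq, mul_le_mul_of_nonneg_left hmain hL]

/-- The energy of a Lipschitz curve controls the distance of its ends. -/
theorem Par.upper {y : ℝ → E} {K : ℝ≥0} {α β L : ℝ} (hab : α < β) (hL : 0 ≤ L)
    (hy : LipschitzOnWith K y (Icc α β)) (hyU : ∀ t ∈ Icc α β, y t ∈ P.U)
    (hd : L * (β - α) ≤ gdist g (P.ψ (y α)) (P.ψ (y β))) :
    L ^ 2 * (β - α) ≤ ∫ t in α..β, P.pull g (y t) (deriv y t) (deriv y t) := by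
  letI := gMetricSpace g
  have : CompleteSpace E := FiniteDimensional.complete ℝ E
  set G := P.pull g with hGdef
  have hG : IsMetricOn P.U G := P.isMetricOn
  have hyc := hy.continuousOn
  obtain ⟨δ, hδ, hδU⟩ := (isCompact_Icc.image_of_continuousOn hyc).exists_cthickening_subset_open
    P.openU (image_subset_iff.2 hyU)
  set B := Metric.closedBall (0 : E) (K + 1)
  have hcomp : IsCompact (Metric.cthickening δ (y '' Icc α β) ×ˢ B) :=
    (isCompact_Icc.image_of_continuousOn hyc).cthickening.prod (isCompact_closedBall _ _)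
  have huc := hcomp.uniformContinuousOn_of_continuous
    (hG.continuousOn_nrm.mono (prod_mono hδU (subset_univ _)))
  obtain ⟨C₀, hC₀⟩ := hcomp.exists_bound_of_continuousOn
    (hG.continuousOn_nrm.mono (prod_mono hδU (subset_univ _)))
  set μ := volume.restrict (Ioo α β)
  have hy' := ae_hasDerivAt_of_lipschitz hy
  have hymem : ∀ t ∈ Icc α β, y t ∈ Metric.cthickening δ (y '' Icc α β) := fun t ht =>
    Metric.self_subset_cthickening _ (mem_image_of_mem y ht)
  have hdm : AEStronglyMeasurable (deriv y) μ := aestronglyMeasurable_deriv _ _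
  have hNm : ∀ {z : ℝ → E}, ContinuousOn z (Icc α β) → (∀ t ∈ Icc α β, z t ∈ P.U) →
      AEStronglyMeasurable (fun t => nrm G (z t) (deriv y t)) μ := fun hz hzU =>
    Real.continuous_sqrt.comp_aestronglyMeasurable (aesm_apply (aesm_apply
      (((hG.smooth.continuousOn.comp hz hzU).mono Ioo_subset_Icc_self).aestronglyMeasurable
        measurableSet_Ioo) hdm) hdm)
  have hNb : ∀ {z : ℝ → E}, (∀ t ∈ Icc α β, z t ∈ Metric.cthickening δ (y '' Icc α β)) →
      ∀ᵐ t ∂μ, ‖nrm G (z t) (deriv y t)‖ ≤ C₀ := fun hz => by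
    filter_upwards [hy', ae_restrict_mem measurableSet_Ioo] with t h1 ht
    exact hC₀ (_, _) ⟨hz t (Ioo_subset_Icc_self ht),
      mem_closedBall_zero_iff.2 (h1.2.trans (by linarith))⟩
  have hNint : ∀ {z : ℝ → E}, ContinuousOn z (Icc α β) →
      (∀ t ∈ Icc α β, z t ∈ Metric.cthickening δ (y '' Icc α β)) →
      IntervalIntegrable (fun t => nrm G (z t) (deriv y t)) volume α β := fun hz hz' =>
    (intervalIntegrable_iff_integrableOn_Ioo_of_le hab.le).2
      (IntegrableOn.of_bound measure_Ioo_lt_top (hNm hz fun t ht => hδU (hz' t ht)) _ (hNb hz'))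
  set N : ℝ → ℝ := fun t => nrm G (y t) (deriv y t)
  have hN : IntervalIntegrable N volume α β := hNint hyc hymem
  have hmain : L * (β - α) ≤ ∫ t in α..β, N t := by
    refine le_of_forall_pos_le_add fun e he => ?_
    set ε := e / (2 * (β - α))
    have hba : 0 < β - α := sub_pos.2 hab
    have hε : 0 < ε := by positivity
    obtain ⟨η, hη, hηd⟩ := Metric.uniformContinuousOn_iff.1 huc ε hε
    obtain ⟨n, hn⟩ := exists_nat_gt ((K + 1) * (β - α) / min η δ)
    have hmin : 0 < min η δ := lt_min hη hδ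
    have hn0 : (0 : ℝ) < n := lt_of_le_of_lt (by positivity) hn
    set h := (β - α) / n with hh
    have hh0 : 0 < h := by positivity
    have hKh : (K + 1) * h < min η δ := by
      rw [div_lt_iff₀ hmin] at hn
      rw [hh, mul_div_assoc', div_lt_iff₀ hn0]
      linarith
    have hstep : ∀ k : ℕ, k ≤ n → gdist g (P.ψ (y α)) (P.ψ (y (α + k * h))) ≤
        (∫ t in α..α + k * h, N t) + 2 * ε * (k * h) := by
      intro k
      induction k with
      | zero =>
        intro _
        rw [← gMetricSpace_dist]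
        simp
      | succ k ih =>
        intro hk
        have hkn : (k : ℝ) + 1 ≤ n := by exact_mod_cast hk
        have hhn : h * n = β - α := by rw [hh]; field_simp
        have hsb : α + k * h + h ≤ β := by nlinarith
        set s := α + k * h with hs
        have hsa : α ≤ s := le_add_of_nonneg_right (by positivity)
        have hsub : Icc s (s + h) ⊆ Icc α β := Icc_subset_Icc hsa hsb
        have hye : α + ((k + 1 : ℕ) : ℝ) * h = s + h := by push_cast; ring
        rw [hye]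
        set Δ := y (s + h) - y s with hΔ
        have hΔn : ‖Δ‖ ≤ K * h := by
          have := hy.dist_le_mul (s + h) (hsub ⟨by linarith, le_rfl⟩) s (hsub ⟨le_rfl, by linarith⟩)
          rw [dist_eq_norm, dist_eq_norm] at this
          simpa [abs_of_pos hh0] using this
        have hD : ‖h⁻¹ • Δ‖ ≤ K + 1 := by
          rw [norm_smul, Real.norm_eq_abs, abs_of_pos (inv_pos.2 hh0), inv_mul_le_iff₀ hh0]
          linarith only [hΔn, hh0]
        have hKh' : ‖Δ‖ ≤ min η δ := by linarith only [hΔn, hh0, hKh]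
        have hseg : gdist g (P.ψ (y s)) (P.ψ (y (s + h))) ≤ nrm G (y s) Δ + ε * h :=
          P.seg_le hδU hηd hh0 hε hη (mem_image_of_mem y (hsub ⟨le_rfl, by linarith⟩))
            hD (lt_of_le_of_lt hΔn (by linarith only [hKh, hh0, min_le_left η δ]))
            (hKh'.trans (min_le_right _ _))
        have hint := integral_deriv_of_lipschitz hab.le hy hsa (show s ≤ s + h by linarith) hsb
        have hu2 : uIcc s (s + h) ⊆ uIcc α β := by
          rw [uIcc_of_le (by linarith), uIcc_of_le hab.le]; exact hsub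
        have hfroz : IntervalIntegrable (fun t => nrm G (y s) (deriv y t)) volume s (s + h) :=
          (hNint continuousOn_const (fun _ _ => hymem s (hsub ⟨le_rfl, by linarith⟩))).mono_set hu2
        have hNs : IntervalIntegrable N volume s (s + h) := hN.mono_set hu2
        have hjen : nrm G (y s) Δ ≤ (∫ t in s..s + h, N t) + ε * h := by
          rw [hΔ, ← hint.2]
          refine (hG.nrm_integral_le (hyU s (hsub ⟨le_rfl, by linarith⟩)) (by linarith) hint.1
            hfroz).trans ?_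
          rw [show ε * h = ∫ _ in s..s + h, ε by simp [mul_comm],
            ← intervalIntegral.integral_add hNs intervalIntegrable_const]
          refine intervalIntegral.integral_mono_ae_restrict (by linarith) hfroz
            (hNs.add intervalIntegrable_const) ?_
          rw [← restrict_Ioo_eq_restrict_Icc]
          filter_upwards [ae_restrict_of_ae_restrict_of_subset (Ioo_subset_Ioo hsa hsb) hy',
            ae_restrict_mem measurableSet_Ioo] with t h1 ht
          have htm : t ∈ Icc α β := hsub (Ioo_subset_Icc_self ht)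
          exact nrm_freeze hy hηd hη (hsub ⟨le_rfl, by linarith⟩) htm
            (hymem s (hsub ⟨le_rfl, by linarith⟩)) (hymem t htm) (h1.2.trans (by linarith only))
            ⟨le_of_lt ht.1, ht.2.le⟩ (by linarith only [hKh, hh0, min_le_left η δ])
        have htri : gdist g (P.ψ (y α)) (P.ψ (y (s + h))) ≤
            gdist g (P.ψ (y α)) (P.ψ (y s)) + gdist g (P.ψ (y s)) (P.ψ (y (s + h))) :=
          dist_triangle (P.ψ (y α)) (P.ψ (y s)) (P.ψ (y (s + h)))
        have hsplit := intervalIntegral.integral_add_adjacent_intervals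
          (hN.mono_set (uIcc_subset_uIcc left_mem_uIcc
            (by rw [uIcc_of_le hab.le]; exact hsub ⟨le_rfl, by linarith⟩))) hNs
        have := ih (by omega)
        push_cast
        linarith
    have hnh : α + n * h = β := by rw [hh]; field_simp; ring
    have := hstep n le_rfl
    rw [hnh] at this
    have h2 : 2 * ε * (n * h) = e := by
      rw [show (n : ℝ) * h = β - α by linarith]
      simp only [ε]; field_simp
    linarith
  exact energy_of_length hG hab hL hyU hN hmain (hNb hymem)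
    (aesm_apply (aesm_apply
      (((hG.smooth.continuousOn.comp hyc hyU).mono Ioo_subset_Icc_self).aestronglyMeasurable
        measurableSet_Ioo) hdm) hdm)

/-- A metric segment which is minimal for the allowed displacements of its left end minimises the
energy in coordinates. -/
theorem Par.isMin {y₀ : E} (hy₀ : y₀ ∈ P.U) :
    ∃ ρ > 0, Metric.ball y₀ ρ ⊆ P.U ∧ ∀ (c : ℝ → M) (α β L : ℝ) (T : Set E), α < β → 0 ≤ L →
      (∀ s ∈ Icc α β, c s ∈ P.W ∧ P.φ (c s) ∈ Metric.ball y₀ ρ) →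
      (∀ s ∈ Icc α β, ∀ t ∈ Icc α β, gdist g (c s) (c t) = L * |s - t|) →
      (∀ e ∈ P.U, e - P.φ (c α) ∈ T → L * (β - α) ≤ gdist g (P.ψ e) (c β)) →
      IsMin (P.pull g) P.U T α β L (fun s => P.φ (c s)) := by
  have hG := P.isMetricOn (g := g)
  obtain ⟨ρ, hρ, hρU, hlow⟩ := P.lower (g := g) hy₀ (ε := 1 / 2) (by norm_num) (by norm_num)
  obtain ⟨k, hk, hkv⟩ := hG.le_nrm hy₀
  refine ⟨ρ, hρ, hρU, fun c α β L T hab hL hc hd hT => ?_⟩
  have hrec : ∀ s ∈ Icc α β, P.ψ (P.φ (c s)) = c s := fun s hs => P.right _ (hc s hs).1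
  refine ⟨hab, ⟨(2 * L / k).toNNReal, LipschitzOnWith.of_dist_le_mul fun s hs t ht => ?_⟩,
    fun s hs => hρU (hc s hs).2, ?_, fun K y hy hyU hyβ hyα => ?_⟩
  · have h := hlow _ (hc t ht).2 _ (hc s hs).2
    rw [hrec s hs, hrec t ht, hd t ht s hs] at h
    have := hkv (P.φ (c s) - P.φ (c t))
    rw [dist_eq_norm, Real.dist_eq, Real.coe_toNNReal _ (by positivity), abs_sub_comm s t,
      div_mul_eq_mul_div, le_div_iff₀ hk]
    linarith
  · have hlip : LipschitzOnWith (2 * L / k).toNNReal (fun s => P.φ (c s)) (Icc α β) := by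
      refine LipschitzOnWith.of_dist_le_mul fun s hs t ht => ?_
      have h := hlow _ (hc t ht).2 _ (hc s hs).2
      rw [hrec s hs, hrec t ht, hd t ht s hs] at h
      have := hkv (P.φ (c s) - P.φ (c t))
      rw [dist_eq_norm, Real.dist_eq, Real.coe_toNNReal _ (by positivity), abs_sub_comm s t,
        div_mul_eq_mul_div, le_div_iff₀ hk]
      linarith
    filter_upwards [ae_hasDerivAt_of_lipschitz hlip, ae_restrict_mem measurableSet_Ioo]
      with t ht hmem
    set x := fun s => P.φ (c s)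
    have htI := Ioo_subset_Icc_self hmem
    have hxU : x t ∈ P.U := hρU (hc t htI).2
    have hbound : ∀ e : ℝ, 0 < e → e < 1 → (1 - e) * nrm (P.pull g) (x t) (deriv x t) ≤ L := by
      intro e he he1
      obtain ⟨r, hr, hrU, hl⟩ := P.lower (g := g) hxU he he1
      have hev : ∀ᶠ h : ℝ in 𝓝[>] 0,
          (1 - e) * nrm (P.pull g) (x t) (h⁻¹ • (x (t + h) - x t)) ≤ L := by
        have hcont : ∀ᶠ h : ℝ in 𝓝 0, x (t + h) ∈ Metric.ball (x t) r := by
          have h1 : ContinuousAt (fun h : ℝ => x (t + h)) 0 := by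
            have h2 : ContinuousAt (fun h : ℝ => t + h) 0 := by fun_prop
            have h3 : ContinuousAt x ((fun h : ℝ => t + h) 0) := by simpa using ht.1.continuousAt
            exact ContinuousAt.comp (g := x) h3 h2
          exact h1.preimage_mem_nhds (by simpa using Metric.ball_mem_nhds (x t) hr)
        have hI : ∀ᶠ h : ℝ in 𝓝 0, t + h ∈ Icc α β := by
          have h1 : ContinuousAt (fun h : ℝ => t + h) 0 := by fun_prop
          exact h1.preimage_mem_nhds (by simpa using Icc_mem_nhds hmem.1 hmem.2)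
        filter_upwards [mem_nhdsWithin_of_mem_nhds hcont, mem_nhdsWithin_of_mem_nhds hI,
          self_mem_nhdsWithin] with h h1 h2 h3
        have := hl _ (Metric.mem_ball_self hr) _ h1
        rw [hrec t htI, hrec (t + h) h2, hd t htI _ h2,
          show |t - (t + h)| = h by simp [abs_of_pos (Set.mem_Ioi.1 h3)]] at this
        rw [nrm_smul _ _ _ (inv_pos.2 h3).le, mul_left_comm, inv_mul_le_iff₀ h3]
        linarith
      have hlim : Tendsto (fun h : ℝ => h⁻¹ • (x (t + h) - x t)) (𝓝[>] 0) (𝓝 (deriv x t)) :=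
        (hasDerivAt_iff_tendsto_slope_zero.1 ht.1).mono_left (nhdsGT_le_nhdsNE 0)
      have hcn : ContinuousAt (fun v => (1 - e) * nrm (P.pull g) (x t) v) (deriv x t) :=
        (continuous_const.mul (continuousOn_univ.1 (hG.continuousOn_nrm_comp continuousOn_const
          (fun _ _ => hxU) continuousOn_id))).continuousAt
      exact le_of_tendsto (hcn.tendsto.comp hlim) hev
    have hn : nrm (P.pull g) (x t) (deriv x t) ≤ L := by
      refine le_of_forall_pos_le_add fun e he => ?_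
      set n₀ := nrm (P.pull g) (x t) (deriv x t) with hn₀
      have hn0 : 0 ≤ n₀ := nrm_nonneg _ _ _
      have hlt : min (1 / 2) (e / (n₀ + 1)) * n₀ ≤ e := by
        refine (mul_le_mul_of_nonneg_right (min_le_right _ _) hn0).trans ?_
        rw [div_mul_eq_mul_div, div_le_iff₀ (by positivity)]
        nlinarith
      have := hbound (min (1 / 2) (e / (n₀ + 1))) (by positivity)
        (lt_of_le_of_lt (min_le_left _ _) (by norm_num))
      linarith
    calc P.pull g (x t) (deriv x t) (deriv x t)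
        = nrm (P.pull g) (x t) (deriv x t) ^ 2 :=
          (Real.sq_sqrt (hG.nonneg hxU (deriv x t))).symm
      _ ≤ L ^ 2 := pow_le_pow_left₀ (nrm_nonneg _ _ _) hn 2
  · refine P.upper hab hL hy hyU ?_
    rw [hyβ, hrec β ⟨hab.le, le_rfl⟩]
    exact hT _ (hyU α ⟨le_rfl, hab.le⟩) hyα

end

end Vale.Agent.P216.Chord
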